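import Mathlib

/-!
# P259, module B: elementary homological algebra

Complexes indexed by `ℕ` with a degree lowering differential, and double complexes with the
staircase comparisons that replace spectral sequences in the uses of this module.
-/

universe u

namespace Vale.Agent.P259.Cat

/-- A chain complex of abelian groups in degrees `ℕ`. -/
structure Cx : Type (u + 1) where
  X : ℕ → Type u
  grp : ∀ n, AddCommGroup (X n)
  d : ∀ n, X (n + 1) →+ X n
  dd : ∀ n x, d n (d (n + 1) x) = 0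

attribute [instance] Cx.grp

namespace Cx

variable (C : Cx.{u})

/-- Cycles. -/
def cyc : ∀ n, AddSubgroup (C.X n)
  | 0 => ⊤
  | n + 1 => (C.d n).ker

theorem mem_cyc_zero (x : C.X 0) : x ∈ C.cyc 0 := trivial

theorem mem_cyc_succ {n : ℕ} (x : C.X (n + 1)) : x ∈ C.cyc (n + 1) ↔ C.d n x = 0 := Iff.rfl

theorem d_mem_cyc (n : ℕ) (x : C.X (n + 1)) : C.d n x ∈ C.cyc n := by
  cases n with
  | zero => trivial
  | succ n => exact C.dd n x

/-- Boundaries, inside cycles. -/
def bnd (n : ℕ) : AddSubgroup (C.cyc n) := (C.d n).range.addSubgroupOf (C.cyc n)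

/-- Homology. -/
def H (n : ℕ) : Type u := C.cyc n ⧸ C.bnd n

instance (n : ℕ) : AddCommGroup (C.H n) := inferInstanceAs (AddCommGroup (C.cyc n ⧸ C.bnd n))

/-- The class of a cycle. -/
def cls (n : ℕ) : C.cyc n →+ C.H n := QuotientAddGroup.mk' (C.bnd n)

theorem cls_surjective (n : ℕ) : Function.Surjective (C.cls n) :=
  QuotientAddGroup.mk'_surjective _

theorem cls_eq_zero {n : ℕ} (x : C.cyc n) : C.cls n x = 0 ↔ ∃ y, C.d n y = x.1 := by
  rw [cls]
  exact QuotientAddGroup.eq_zero_iff x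

/-- Every cycle in degree `n` is a boundary. -/
def Exact (n : ℕ) : Prop := ∀ x ∈ C.cyc n, ∃ y, C.d n y = x

theorem exact_iff_subsingleton (n : ℕ) : C.Exact n ↔ Subsingleton (C.H n) := by
  constructor
  · intro h
    refine ⟨fun a b => ?_⟩
    obtain ⟨a, rfl⟩ := C.cls_surjective n a
    obtain ⟨b, rfl⟩ := C.cls_surjective n b
    rw [← sub_eq_zero, ← map_sub]
    exact (C.cls_eq_zero _).2 (h _ (a - b).2)
  · intro h x hx
    exact (C.cls_eq_zero ⟨x, hx⟩).1 (Subsingleton.elim _ _)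

end Cx

/-- A chain map. -/
structure CxHom (C D : Cx.{u}) where
  f : ∀ n, C.X n →+ D.X n
  comm : ∀ n x, f n (C.d n x) = D.d n (f (n + 1) x)

namespace CxHom

variable {C D E : Cx.{u}}

/-- The identity chain map. -/
def id (C : Cx.{u}) : CxHom C C := ⟨fun _ => AddMonoidHom.id _, fun _ _ => rfl⟩

/-- Composition of chain maps. -/
def comp (g : CxHom D E) (f : CxHom C D) : CxHom C E :=
  ⟨fun n => (g.f n).comp (f.f n), fun n x => by
    simp only [AddMonoidHom.comp_apply, f.comm, g.comm]⟩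

variable (f : CxHom C D)

theorem mem_cyc {n : ℕ} {x : C.X n} (hx : x ∈ C.cyc n) : f.f n x ∈ D.cyc n := by
  cases n with
  | zero => trivial
  | succ n =>
      rw [Cx.mem_cyc_succ] at hx ⊢
      rw [← f.comm, hx, map_zero]

/-- Restriction to cycles. -/
def cycMap (n : ℕ) : C.cyc n →+ D.cyc n :=
  ((f.f n).comp (C.cyc n).subtype).codRestrict (D.cyc n) fun x => f.mem_cyc x.2

/-- The induced map on homology. -/
def mapH (n : ℕ) : C.H n →+ D.H n :=
  QuotientAddGroup.map (C.bnd n) (D.bnd n) (f.cycMap n) fun x hx => by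
    obtain ⟨y, hy⟩ := hx
    exact ⟨f.f (n + 1) y, (f.comm n y).symm.trans (congrArg (f.f n) hy)⟩

theorem mapH_cls (n : ℕ) (x : C.cyc n) :
    f.mapH n (C.cls n x) = D.cls n (f.cycMap n x) := rfl

theorem mapH_comp (g : CxHom D E) (n : ℕ) (a : C.H n) :
    (g.comp f).mapH n a = g.mapH n (f.mapH n a) := by
  obtain ⟨a, rfl⟩ := C.cls_surjective n a
  rfl

theorem mapH_id (n : ℕ) (a : C.H n) : (CxHom.id C).mapH n a = a := by
  obtain ⟨a, rfl⟩ := C.cls_surjective n a
  rfl

end CxHom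

/-- A double complex with commuting differentials, indexed by `ℕ × ℕ`. -/
structure Dbl : Type (u + 1) where
  X : ℕ → ℕ → Type u
  grp : ∀ p q, AddCommGroup (X p q)
  dh : ∀ p q, X (p + 1) q →+ X p q
  dv : ∀ p q, X p (q + 1) →+ X p q
  hh : ∀ p q x, dh p q (dh (p + 1) q x) = 0
  vv : ∀ p q x, dv p q (dv p (q + 1) x) = 0
  sq : ∀ p q x, dh p q (dv (p + 1) q x) = dv p q (dh p (q + 1) x)

attribute [instance] Dbl.grp

namespace Dbl

variable (K : Dbl.{u})

/-- The row at height `q`. -/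
abbrev row (q : ℕ) : Cx.{u} := ⟨fun p => K.X p q, fun p => K.grp p q, fun p => K.dh p q,
  fun p => K.hh p q⟩

/-- The column at position `p`. -/
abbrev col (p : ℕ) : Cx.{u} := ⟨fun q => K.X p q, fun q => K.grp p q, fun q => K.dv p q,
  fun q => K.vv p q⟩

/-- Horizontal cycles. -/
def hc (p q : ℕ) : AddSubgroup (K.X p q) := (K.row q).cyc p

/-- Vertical cycles. -/
def vc (p q : ℕ) : AddSubgroup (K.X p q) := (K.col p).cyc q

theorem dh_hc (p q : ℕ) (x : K.X (p + 1) q) : K.dh p q x ∈ K.hc p q :=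
  (K.row q).d_mem_cyc p x

theorem dv_vc (p q : ℕ) (x : K.X p (q + 1)) : K.dv p q x ∈ K.vc p q :=
  (K.col p).d_mem_cyc q x

theorem dh_vc {p q : ℕ} {x : K.X (p + 1) q} (hx : x ∈ K.vc (p + 1) q) :
    K.dh p q x ∈ K.vc p q := by
  cases q with
  | zero => trivial
  | succ q =>
      show K.dv p q (K.dh p (q + 1) x) = 0
      rw [← K.sq, show K.dv (p + 1) q x = 0 from hx, map_zero]

theorem dv_hc {p q : ℕ} {x : K.X p (q + 1)} (hx : x ∈ K.hc p (q + 1)) :
    K.dv p q x ∈ K.hc p q := by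
  cases p with
  | zero => trivial
  | succ p =>
      show K.dh p q (K.dv (p + 1) q x) = 0
      rw [K.sq, show K.dh p (q + 1) x = 0 from hx, map_zero]

/-- Elements that are cycles for both differentials. -/
def Z (p q : ℕ) : AddSubgroup (K.X p q) := K.hc p q ⊓ K.vc p q

/-- Horizontal boundaries of vertical cycles, inside `Z`. -/
def B (p q : ℕ) : AddSubgroup (K.Z p q) :=
  ((K.vc (p + 1) q).map (K.dh p q)).addSubgroupOf (K.Z p q)

/-- The staircase groups interpolating between a row and a column. -/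
def G (p q : ℕ) : Type u := K.Z p q ⧸ K.B p q

instance (p q : ℕ) : AddCommGroup (K.G p q) := inferInstanceAs (AddCommGroup (K.Z p q ⧸ K.B p q))

/-- The class in `G`. -/
def gcls (p q : ℕ) : K.Z p q →+ K.G p q := QuotientAddGroup.mk' (K.B p q)

theorem gcls_surjective (p q : ℕ) : Function.Surjective (K.gcls p q) :=
  QuotientAddGroup.mk'_surjective _

theorem gcls_eq_zero {p q : ℕ} (x : K.Z p q) :
    K.gcls p q x = 0 ↔ ∃ f ∈ K.vc (p + 1) q, K.dh p q f = x.1 := by
  rw [gcls]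
  exact QuotientAddGroup.eq_zero_iff x

/-- The relation defining one step of the staircase. -/
theorem step_mem {p q : ℕ} (c : K.Z p (q + 1)) {e : K.X (p + 1) (q + 1)}
    (he : K.dh p (q + 1) e = c.1) : K.dv (p + 1) q e ∈ K.Z (p + 1) q := by
  refine ⟨?_, K.dv_vc _ _ e⟩
  show K.dh p q (K.dv (p + 1) q e) = 0
  rw [K.sq, he]
  exact c.2.2

/-- Rows in positive height are exact. -/
def RowsExact : Prop := ∀ p q, (K.row (q + 1)).Exact p

variable {K} (hr : K.RowsExact)

include hr in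
theorem exists_lift {p q : ℕ} (c : K.Z p (q + 1)) :
    ∃ e : K.X (p + 1) (q + 1), K.dh p (q + 1) e = c.1 :=
  hr p q c.1 c.2.1

/-- A chosen horizontal preimage. -/
noncomputable def pre {p q : ℕ} (c : K.Z p (q + 1)) : K.X (p + 1) (q + 1) :=
  (exists_lift hr c).choose

theorem dh_pre {p q : ℕ} (c : K.Z p (q + 1)) : K.dh p (q + 1) (pre hr c) = c.1 :=
  (exists_lift hr c).choose_spec

include hr in
theorem step_eq {p q : ℕ} (c c' : K.Z p (q + 1)) {e e' : K.X (p + 1) (q + 1)}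
    (he : K.dh p (q + 1) e = c.1) (he' : K.dh p (q + 1) e' = c'.1) (h : c = c') :
    K.gcls (p + 1) q ⟨_, K.step_mem c he⟩ = K.gcls (p + 1) q ⟨_, K.step_mem c' he'⟩ := by
  subst h
  rw [← sub_eq_zero, ← map_sub]
  refine (K.gcls_eq_zero _).2 ?_
  obtain ⟨g, hg⟩ := hr (p + 1) q (e - e') (by
    show K.dh p (q + 1) (e - e') = 0
    rw [map_sub, he, he', sub_self])
  refine ⟨K.dv (p + 2) q g, K.dv_vc _ _ g, ?_⟩
  show K.dh (p + 1) q (K.dv (p + 1 + 1) q g) = K.dv (p + 1) q e - K.dv (p + 1) q e'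
  rw [K.sq, show K.dh (p + 1) (q + 1) g = e - e' from hg, map_sub]

/-- The step map on `Z`. -/
noncomputable def stepZ (p q : ℕ) : K.Z p (q + 1) →+ K.G (p + 1) q where
  toFun c := K.gcls (p + 1) q ⟨_, K.step_mem c (dh_pre hr c)⟩
  map_zero' := by
    rw [step_eq hr 0 0 (dh_pre hr 0) (map_zero _) rfl]
    refine Eq.trans ?_ (map_zero (K.gcls (p + 1) q))
    exact congrArg _ (Subtype.ext (map_zero _))
  map_add' a b := by
    have h : K.dh p (q + 1) (pre hr a + pre hr b) = (a + b).1 := by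
      rw [map_add, dh_pre, dh_pre]; rfl
    rw [step_eq hr (a + b) (a + b) (dh_pre hr _) h rfl, ← map_add]
    exact congrArg _ (Subtype.ext (map_add _ _ _))

theorem stepZ_eq {p q : ℕ} (c : K.Z p (q + 1)) {e : K.X (p + 1) (q + 1)}
    (he : K.dh p (q + 1) e = c.1) :
    stepZ hr p q c = K.gcls (p + 1) q ⟨_, K.step_mem c he⟩ :=
  step_eq hr c c (dh_pre hr c) he rfl

/-- One step of the staircase. -/
noncomputable def step (p q : ℕ) : K.G p (q + 1) →+ K.G (p + 1) q :=
  QuotientAddGroup.lift (K.B p (q + 1)) (stepZ hr p q) fun c hc => by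
    obtain ⟨f, hf, hfc⟩ := hc
    show stepZ hr p q c = 0
    rw [stepZ_eq hr c (e := f) hfc]
    refine Eq.trans ?_ (map_zero (K.gcls (p + 1) q))
    exact congrArg _ (Subtype.ext hf)

theorem step_gcls {p q : ℕ} (c : K.Z p (q + 1)) {e : K.X (p + 1) (q + 1)}
    (he : K.dh p (q + 1) e = c.1) :
    step hr p q (K.gcls p (q + 1) c) = K.gcls (p + 1) q ⟨_, K.step_mem c he⟩ :=
  stepZ_eq hr c he

theorem step_surjective (p q : ℕ) (hcol : (K.col (p + 1)).Exact q) :
    Function.Surjective (step hr p q) := by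
  intro x
  obtain ⟨x, rfl⟩ := K.gcls_surjective (p + 1) q x
  obtain ⟨e, he⟩ := hcol x.1 x.2.2
  have hm : K.dh p (q + 1) e ∈ K.Z p (q + 1) := by
    refine ⟨K.dh_hc _ _ e, ?_⟩
    show K.dv p q (K.dh p (q + 1) e) = 0
    rw [← K.sq, show K.dv (p + 1) q e = x.1 from he]
    exact x.2.1
  refine ⟨K.gcls p (q + 1) ⟨_, hm⟩, ?_⟩
  rw [step_gcls hr ⟨_, hm⟩ (e := e) rfl]
  exact congrArg _ (Subtype.ext he)

theorem step_injective (p q : ℕ) (hcol : (K.col (p + 2)).Exact q) :
    Function.Injective (step hr p q) := by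
  rw [injective_iff_map_eq_zero]
  intro x hx
  obtain ⟨x, rfl⟩ := K.gcls_surjective p (q + 1) x
  obtain ⟨e, he⟩ := hr p q x.1 x.2.1
  rw [step_gcls hr x (e := e) he, gcls_eq_zero] at hx
  obtain ⟨f, hf, hfe⟩ := hx
  obtain ⟨h, hh⟩ := hcol f hf
  refine (K.gcls_eq_zero x).2 ⟨e - K.dh (p + 1) (q + 1) h, ?_, ?_⟩
  · show K.dv (p + 1) q (e - K.dh (p + 1) (q + 1) h) = 0
    rw [map_sub, ← K.sq, show K.dv (p + 1 + 1) q h = f from hh, hfe, sub_self]
  · rw [map_sub, show K.dh p (q + 1) e = x.1 from he, K.hh, sub_zero]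

/-- The iterated step `G p q → G (p + q) 0`, following the antidiagonal. -/
noncomputable def stair : ∀ (q p r : ℕ), p + q = r → (K.G p q →+ K.G r 0)
  | 0, p, r, h => (show p = r from h) ▸ AddMonoidHom.id _
  | q + 1, p, r, h => (stair q (p + 1) r (by omega)).comp (step hr p q)

theorem stair_zero (p : ℕ) (x : K.G p 0) : stair hr 0 p p rfl x = x := rfl

theorem stair_succ (q p r : ℕ) (h : p + (q + 1) = r) (x : K.G p (q + 1)) :
    stair hr (q + 1) p r h x = stair hr q (p + 1) r (by omega) (step hr p q x) := rfl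

/-- If columns `a + 1, a + 2` are exact at height `b` along the staircase, it is bijective. -/
theorem stair_bijective (q p r : ℕ) (h : p + q = r)
    (hc : ∀ a b, b < q → (K.col (a + 1)).Exact b) :
    Function.Bijective (stair hr q p r h) := by
  induction q generalizing p with
  | zero =>
      have hp : p = r := h
      subst hp
      exact Function.bijective_id
  | succ q ih =>
      have h1 := ih (p + 1) (by omega) (fun a b hb => hc a b (by omega))
      exact h1.comp ⟨step_injective hr p q (hc (p + 1) q (by omega)),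
        step_surjective hr p q (hc p q (by omega))⟩

variable (K)

/-- Inclusion of `G p 0` in the homology of row zero. -/
def toRow (p : ℕ) : K.G p 0 →+ (K.row 0).H p :=
  QuotientAddGroup.map (K.B p 0) ((K.row 0).bnd p)
    (AddSubgroup.inclusion (fun _ hx => hx.1 : K.Z p 0 ≤ K.hc p 0)) fun x hx => by
      obtain ⟨f, -, hf⟩ := hx
      exact ⟨f, hf⟩

theorem toRow_gcls (p : ℕ) (x : K.Z p 0) :
    K.toRow p (K.gcls p 0 x) = (K.row 0).cls p ⟨x.1, x.2.1⟩ := rfl

theorem toRow_bijective (p : ℕ) : Function.Bijective (K.toRow p) := by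
  constructor
  · rw [injective_iff_map_eq_zero]
    intro x hx
    obtain ⟨x, rfl⟩ := K.gcls_surjective p 0 x
    rw [toRow_gcls, Cx.cls_eq_zero] at hx
    obtain ⟨y, hy⟩ := hx
    exact (K.gcls_eq_zero x).2 ⟨y, trivial, hy⟩
  · intro x
    obtain ⟨x, rfl⟩ := (K.row 0).cls_surjective p x
    exact ⟨K.gcls p 0 ⟨x.1, x.2, trivial⟩, rfl⟩

variable {K}

include hr in
theorem dv_mem_map (q : ℕ) (y : K.X 0 (q + 1)) :
    ∃ f ∈ K.vc 1 q, K.dh 0 q f = K.dv 0 q y := by
  obtain ⟨e, he⟩ := hr 0 q y trivial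
  exact ⟨K.dv 1 q e, K.dv_vc _ _ e,
    (K.sq 0 q e).trans (congrArg (K.dv 0 q) he)⟩

/-- The homology of column zero maps to `G 0 q`. -/
def ofCol (q : ℕ) : (K.col 0).H q →+ K.G 0 q :=
  QuotientAddGroup.map ((K.col 0).bnd q) (K.B 0 q)
    (AddSubgroup.inclusion (fun _ hx => ⟨trivial, hx⟩ : K.vc 0 q ≤ K.Z 0 q)) fun x hx => by
      obtain ⟨y, hy⟩ := hx
      obtain ⟨f, hf, hfy⟩ := dv_mem_map hr q y
      exact ⟨f, hf, hfy.trans hy⟩

theorem ofCol_cls (q : ℕ) (x : (K.col 0).cyc q) :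
    ofCol hr q ((K.col 0).cls q x) = K.gcls 0 q ⟨x.1, trivial, x.2⟩ := rfl

theorem ofCol_surjective (q : ℕ) : Function.Surjective (ofCol hr q) := by
  intro x
  obtain ⟨x, rfl⟩ := K.gcls_surjective 0 q x
  exact ⟨(K.col 0).cls q ⟨x.1, x.2.2⟩, rfl⟩

theorem ofCol_injective (q : ℕ) (hcol : (K.col 1).Exact q) :
    Function.Injective (ofCol hr q) := by
  rw [injective_iff_map_eq_zero]
  intro x hx
  obtain ⟨x, rfl⟩ := (K.col 0).cls_surjective q x
  rw [ofCol_cls, gcls_eq_zero] at hx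
  obtain ⟨f, hf, hfx⟩ := hx
  obtain ⟨y, hy⟩ := hcol f hf
  refine ((K.col 0).cls_eq_zero x).2 ⟨K.dh 0 (q + 1) y, ?_⟩
  show K.dv 0 q (K.dh 0 (q + 1) y) = x.1
  rw [← K.sq, show K.dv (0 + 1) q y = f from hy]
  exact hfx

/-- Column zero to row zero, in degree `n`. -/
noncomputable def colToRow (n : ℕ) : (K.col 0).H n →+ (K.row 0).H n :=
  (K.toRow n).comp ((stair hr n 0 n (zero_add n)).comp (ofCol hr n))

/-- **Comparison**: rows in positive height exact and columns in positive position exact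
through height `n` give a bijection of the homology of column zero and row zero in degree `n`. -/
theorem colToRow_bijective (n : ℕ) (hc : ∀ a b, b ≤ n → (K.col (a + 1)).Exact b) :
    Function.Bijective (colToRow hr n) :=
  (K.toRow_bijective n).comp ((stair_bijective hr n 0 n (zero_add n)
    (fun a b hb => hc a b hb.le)).comp
      ⟨ofCol_injective hr n (hc 0 n le_rfl), ofCol_surjective hr n⟩)

/-- **Acyclicity**: if column zero is exact in degree `n` and the other columns are exact below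
height `n`, then row zero is exact in degree `n`. -/
theorem row_exact_of_col_exact (hr : K.RowsExact) (n : ℕ) (h0 : (K.col 0).Exact n)
    (hc : ∀ a b, b < n → (K.col (a + 1)).Exact b) : (K.row 0).Exact n := by
  rw [Cx.exact_iff_subsingleton] at h0 ⊢
  exact Function.Surjective.subsingleton (f := colToRow hr n) ((K.toRow_bijective n).2.comp
    ((stair_bijective hr n 0 n (zero_add n) hc).2.comp (ofCol_surjective hr n)))

variable (K)

/-- The cokernel of the horizontal map on vertical homology from column two to column one. -/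
def T (k : ℕ) : Type u :=
  K.vc 1 k ⧸ ((K.dv 1 k).range ⊔ (K.vc 2 k).map (K.dh 1 k)).addSubgroupOf (K.vc 1 k)

instance (k : ℕ) : AddCommGroup (K.T k) := inferInstanceAs (AddCommGroup (K.vc 1 k ⧸
  ((K.dv 1 k).range ⊔ (K.vc 2 k).map (K.dh 1 k)).addSubgroupOf (K.vc 1 k)))

/-- The class in `T`. -/
def tcls (k : ℕ) : K.vc 1 k →+ K.T k := QuotientAddGroup.mk' _

theorem tcls_surjective (k : ℕ) : Function.Surjective (K.tcls k) :=
  QuotientAddGroup.mk'_surjective _

theorem tcls_eq_zero {k : ℕ} (x : K.vc 1 k) : K.tcls k x = 0 ↔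
    ∃ y, ∃ f ∈ K.vc 2 k, K.dv 1 k y + K.dh 1 k f = x.1 := by
  rw [tcls]
  refine (QuotientAddGroup.eq_zero_iff x).trans ?_
  show x.1 ∈ (K.dv 1 k).range ⊔ (K.vc 2 k).map (K.dh 1 k) ↔ _
  rw [AddSubgroup.mem_sup]
  constructor
  · rintro ⟨_, ⟨y, rfl⟩, _, ⟨f, hf, rfl⟩, h⟩
    exact ⟨y, f, hf, h⟩
  · rintro ⟨y, f, hf, h⟩
    exact ⟨_, ⟨y, rfl⟩, _, ⟨f, hf, rfl⟩, h⟩

/-- `G 1 k → T k`. -/
def toT (k : ℕ) : K.G 1 k →+ K.T k :=
  QuotientAddGroup.map (K.B 1 k) _
    (AddSubgroup.inclusion (fun _ hx => hx.2 : K.Z 1 k ≤ K.vc 1 k)) fun x hx =>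
      (show x.1 ∈ (K.dv 1 k).range ⊔ (K.vc 2 k).map (K.dh 1 k) from
        AddSubgroup.mem_sup_right hx)

theorem toT_gcls (k : ℕ) (x : K.Z 1 k) : K.toT k (K.gcls 1 k x) = K.tcls k ⟨x.1, x.2.2⟩ := rfl

variable {K}

include hr in
theorem toT_bijective (k : ℕ) (h0 : (K.col 0).Exact k) (h1 : (K.col 0).Exact (k + 1)) :
    Function.Bijective (K.toT k) := by
  constructor
  · rw [injective_iff_map_eq_zero]
    intro x hx
    obtain ⟨x, rfl⟩ := K.gcls_surjective 1 k x
    rw [toT_gcls, tcls_eq_zero] at hx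
    obtain ⟨e, f, hf, hef⟩ := hx
    have hz : K.dh 0 k (K.dv 1 k e) = 0 := by
      have := congrArg (K.dh 0 k) hef
      rw [map_add, K.hh, add_zero, show K.dh 0 k x.1 = 0 from x.2.1] at this
      exact this
    obtain ⟨u, hu⟩ := h1 (K.dh 0 (k + 1) e) (by
      show K.dv 0 k (K.dh 0 (k + 1) e) = 0
      rw [← K.sq]; exact hz)
    obtain ⟨v, hv⟩ := hr 0 (k + 1) u trivial
    obtain ⟨w, hw⟩ := hr 1 k (e - K.dv 1 (k + 1) v) (by
      show K.dh 0 (k + 1) (e - K.dv 1 (k + 1) v) = 0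
      rw [map_sub, sub_eq_zero, K.sq, show K.dh 0 (k + 1 + 1) v = u from hv]
      exact hu.symm)
    refine (K.gcls_eq_zero x).2 ⟨f + K.dv 2 k w, add_mem hf (K.dv_vc _ _ w), ?_⟩
    show K.dh 1 k (f + K.dv (1 + 1) k w) = x.1
    rw [map_add, K.sq, show K.dh 1 (k + 1) w = e - K.dv 1 (k + 1) v from hw, map_sub, K.vv,
      sub_zero, ← hef]
    exact add_comm _ _
  · intro x
    obtain ⟨x, rfl⟩ := K.tcls_surjective k x
    obtain ⟨u, hu⟩ := h0 (K.dh 0 k x.1) (K.dh_vc x.2)
    obtain ⟨e, he⟩ := hr 0 k u trivial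
    have hm : x.1 - K.dv 1 k e ∈ K.Z 1 k := by
      refine ⟨?_, AddSubgroup.sub_mem _ x.2 (K.dv_vc _ _ e)⟩
      show K.dh 0 k (x.1 - K.dv (0 + 1) k e) = 0
      rw [map_sub, K.sq, show K.dh 0 (k + 1) e = u from he, sub_eq_zero]
      exact hu.symm
    refine ⟨K.gcls 1 k ⟨_, hm⟩, ?_⟩
    rw [toT_gcls, ← sub_eq_zero, ← map_sub, tcls_eq_zero]
    refine ⟨-e, 0, zero_mem _, ?_⟩
    rw [map_neg, map_zero, add_zero]
    show -(K.dv 1 k e) = x.1 - K.dv 1 k e - x.1
    abel

/-- **Transgression**: column zero acyclic and the other columns exact below height `k` give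
`H (k + 1)` of row zero as the cokernel `T k`. -/
noncomputable def transgression (k : ℕ) (h0 : (K.col 0).Exact k) (h1 : (K.col 0).Exact (k + 1))
    (hc : ∀ a b, b < k → (K.col (a + 1)).Exact b) : K.T k ≃+ (K.row 0).H (k + 1) :=
  (AddEquiv.ofBijective (K.toT k) (toT_bijective hr k h0 h1)).symm.trans
    (AddEquiv.ofBijective ((K.toRow (k + 1)).comp (stair hr k 1 (k + 1) (by omega)))
      ((K.toRow_bijective (k + 1)).comp (stair_bijective hr k 1 (k + 1) (by omega) hc)))

end Dbl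

/-- A map of double complexes. -/
structure DblHom (K L : Dbl.{u}) where
  f : ∀ p q, K.X p q →+ L.X p q
  commh : ∀ p q x, f p q (K.dh p q x) = L.dh p q (f (p + 1) q x)
  commv : ∀ p q x, f p q (K.dv p q x) = L.dv p q (f p (q + 1) x)

namespace DblHom

variable {K L : Dbl.{u}} (F : DblHom K L)

/-- The map of rows. -/
def row (q : ℕ) : CxHom (K.row q) (L.row q) := ⟨fun p => F.f p q, fun p => F.commh p q⟩

/-- The map of columns. -/
def col (p : ℕ) : CxHom (K.col p) (L.col p) := ⟨fun q => F.f p q, fun q => F.commv p q⟩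

theorem mem_Z {p q : ℕ} {x : K.X p q} (hx : x ∈ K.Z p q) : F.f p q x ∈ L.Z p q :=
  ⟨(F.row q).mem_cyc hx.1, (F.col p).mem_cyc hx.2⟩

/-- The map of staircase groups. -/
def mapG (p q : ℕ) : K.G p q →+ L.G p q :=
  QuotientAddGroup.map (K.B p q) (L.B p q)
    (((F.f p q).comp (K.Z p q).subtype).codRestrict (L.Z p q) fun x => F.mem_Z x.2) fun x hx => by
      obtain ⟨f, hf, hfx⟩ := hx
      exact ⟨F.f (p + 1) q f, (F.col (p + 1)).mem_cyc hf,
        (F.commh p q f).symm.trans (congrArg (F.f p q) hfx)⟩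

theorem mapG_gcls (p q : ℕ) (x : K.Z p q) :
    F.mapG p q (K.gcls p q x) = L.gcls p q ⟨F.f p q x.1, F.mem_Z x.2⟩ := rfl

theorem mapG_step (hK : K.RowsExact) (hL : L.RowsExact) (p q : ℕ) (x : K.G p (q + 1)) :
    F.mapG (p + 1) q (Dbl.step hK p q x) = Dbl.step hL p q (F.mapG p (q + 1) x) := by
  obtain ⟨x, rfl⟩ := K.gcls_surjective p (q + 1) x
  obtain ⟨e, he⟩ := hK p q x.1 x.2.1
  rw [Dbl.step_gcls hK x (e := e) he, mapG_gcls, mapG_gcls,
    Dbl.step_gcls hL _ (e := F.f (p + 1) (q + 1) e)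
      ((F.commh p (q + 1) e).symm.trans (congrArg (F.f p (q + 1)) he))]
  exact congrArg _ (Subtype.ext (F.commv (p + 1) q e))

theorem mapG_stair (hK : K.RowsExact) (hL : L.RowsExact) (q p r : ℕ) (h : p + q = r)
    (x : K.G p q) :
    F.mapG r 0 (Dbl.stair hK q p r h x) = Dbl.stair hL q p r h (F.mapG p q x) := by
  induction q generalizing p with
  | zero =>
      have hp : p = r := h
      subst hp
      rfl
  | succ q ih =>
      rw [Dbl.stair_succ, Dbl.stair_succ, ih, F.mapG_step hK hL]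

/-- The comparison of column zero with row zero is natural. -/
theorem colToRow_natural (hK : K.RowsExact) (hL : L.RowsExact) (n : ℕ) (x : (K.col 0).H n) :
    (F.row 0).mapH n (Dbl.colToRow hK n x) = Dbl.colToRow hL n ((F.col 0).mapH n x) := by
  have hrow : ∀ y : K.G n 0, (F.row 0).mapH n (K.toRow n y) = L.toRow n (F.mapG n 0 y) := by
    intro y
    obtain ⟨y, rfl⟩ := K.gcls_surjective n 0 y
    rfl
  have hcol : F.mapG 0 n (Dbl.ofCol hK n x) = Dbl.ofCol hL n ((F.col 0).mapH n x) := by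
    obtain ⟨x, rfl⟩ := (K.col 0).cls_surjective n x
    rfl
  simp only [Dbl.colToRow, AddMonoidHom.comp_apply]
  rw [hrow, F.mapG_stair hK hL, hcol]

end DblHom

end Vale.Agent.P259.Cat
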