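import Vale.Agent.P259.Cat.Alg

/-!
# P259, module B: chains of a set-valued functor

For a functor `P` from a category `A` to sets, `chains P` is the augmented chain complex of the
nerve of its category of elements: a generator in degree `k + 1` is a string
`b₀ ⟶ ⋯ ⟶ b_k` together with an element of `P b₀`, degree `0` is `ℤ`. So exactness in degree
`0` is nonemptiness and in degree `1` connectedness.
-/

universe u

open CategoryTheory

namespace Vale.Agent.P259.Cat

variable {A : Type u} [SmallCategory A]

/-- A covariant functor to sets, with functions as maps. -/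
structure Sh (A : Type u) [SmallCategory A] : Type (u + 1) where
  obj : A → Type u
  map : ∀ {a b : A}, (a ⟶ b) → obj a → obj b
  map_id : ∀ (a : A) (x : obj a), map (𝟙 a) x = x
  map_comp : ∀ {a b c : A} (f : a ⟶ b) (g : b ⟶ c) (x : obj a), map (f ≫ g) x = map g (map f x)

/-- The representable functor under `a`. -/
abbrev hom (a : A) : Sh A where
  obj b := a ⟶ b
  map g f := f ≫ g
  map_id _ _ := Category.comp_id _
  map_comp _ _ _ := (Category.assoc _ _ _).symm

variable (A) in
/-- The terminal functor. -/
abbrev one : Sh A where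
  obj _ := PUnit
  map _ x := x
  map_id _ _ := rfl
  map_comp _ _ _ := rfl

/-- A natural transformation. -/
@[ext]
structure ShHom (P Q : Sh A) : Type u where
  app : ∀ b, P.obj b → Q.obj b
  nat : ∀ {a b : A} (f : a ⟶ b) (x : P.obj a), app b (P.map f x) = Q.map f (app a x)

namespace ShHom

variable {P Q R : Sh A}

/-- Identity. -/
def id (P : Sh A) : ShHom P P := ⟨fun _ x => x, fun _ _ => rfl⟩

/-- Composition. -/
def comp (g : ShHom Q R) (f : ShHom P Q) : ShHom P R :=
  ⟨fun b x => g.app b (f.app b x), fun h x => by rw [f.nat, g.nat]⟩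

/-- The map out of a representable given by an element. -/
def yon (P : Sh A) {a : A} (x : P.obj a) : ShHom (hom a) P :=
  ⟨fun _ f => P.map f x, fun g f => P.map_comp f g x⟩

theorem comp_yon (f : ShHom P Q) {a : A} (x : P.obj a) :
    f.comp (yon P x) = yon Q (f.app a x) := by
  ext b g
  exact f.nat g x

theorem yon_id (a : A) : yon (hom a) (𝟙 a) = ShHom.id (hom a) := by
  ext b g
  exact Category.id_comp g

/-- The map to the terminal functor. -/
def toOne (P : Sh A) : ShHom P (one A) := ⟨fun _ _ => PUnit.unit, fun _ _ => rfl⟩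

end ShHom

variable (A) in
/-- Strings of `k` objects starting with an element of `P`. -/
def Seq : ℕ → Sh A → Type u
  | 0, _ => PUnit
  | k + 1, P => Σ b : A, P.obj b × Seq k (hom b)

/-- The empty string. -/
def Seq.nil (P : Sh A) : Seq A 0 P := PUnit.unit

/-- Prepend an object and an element. -/
def Seq.cons {P : Sh A} {k : ℕ} (b : A) (x : P.obj b) (s : Seq A k (hom b)) : Seq A (k + 1) P :=
  ⟨b, x, s⟩

theorem Seq.exists_cons {P : Sh A} {k : ℕ} (s : Seq A (k + 1) P) :
    ∃ b x s', s = Seq.cons b x s' := ⟨s.1, s.2.1, s.2.2, rfl⟩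

/-- Apply a natural transformation. -/
def Seq.map : ∀ (k : ℕ) {P Q : Sh A}, ShHom P Q → Seq A k P → Seq A k Q
  | 0, _, _, _, _ => PUnit.unit
  | _ + 1, _, _, f, s => ⟨s.1, f.app s.1 s.2.1, s.2.2⟩

theorem Seq.map_cons {P Q : Sh A} (f : ShHom P Q) {k : ℕ} (b : A) (x : P.obj b)
    (s : Seq A k (hom b)) : Seq.map (k + 1) f (Seq.cons b x s) = Seq.cons b (f.app b x) s := rfl

theorem Seq.map_id (k : ℕ) {P : Sh A} (s : Seq A k P) : Seq.map k (ShHom.id P) s = s := by
  cases k <;> rfl

theorem Seq.map_map (k : ℕ) {P Q R : Sh A} (g : ShHom Q R) (f : ShHom P Q) (s : Seq A k P) :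
    Seq.map k g (Seq.map k f s) = Seq.map k (g.comp f) s := by
  cases k <;> rfl

/-- Formal sums of strings. -/
abbrev CX (k : ℕ) (P : Sh A) : Type u := Seq A k P →₀ ℤ

/-- Prepending, linearly. -/
noncomputable def consL (P : Sh A) {k : ℕ} (b : A) (x : P.obj b) :
    CX k (hom b) →+ CX (k + 1) P :=
  Finsupp.mapDomain.addMonoidHom (Seq.cons b x)

theorem consL_single (P : Sh A) {k : ℕ} (b : A) (x : P.obj b) (s : Seq A k (hom b)) (n : ℤ) :
    consL P b x (Finsupp.single s n) = Finsupp.single (Seq.cons b x s) n :=
  Finsupp.mapDomain_single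

/-- Functoriality, linearly. -/
noncomputable def mapL {P Q : Sh A} (f : ShHom P Q) (k : ℕ) : CX k P →+ CX k Q :=
  Finsupp.mapDomain.addMonoidHom (Seq.map k f)

theorem mapL_single {P Q : Sh A} (f : ShHom P Q) (k : ℕ) (s : Seq A k P) (n : ℤ) :
    mapL f k (Finsupp.single s n) = Finsupp.single (Seq.map k f s) n :=
  Finsupp.mapDomain_single

theorem mapL_mapL {P Q R : Sh A} (g : ShHom Q R) (f : ShHom P Q) (k : ℕ) (x : CX k P) :
    mapL g k (mapL f k x) = mapL (g.comp f) k x := by
  induction x using Finsupp.induction_linear with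
  | zero => simp
  | add a b ha hb => simp [ha, hb]
  | single s n => simp [mapL_single, Seq.map_map]

theorem mapL_id (P : Sh A) (k : ℕ) (x : CX k P) : mapL (ShHom.id P) k x = x := by
  induction x using Finsupp.induction_linear with
  | zero => simp
  | add a b ha hb => simp [ha, hb]
  | single s n => simp [mapL_single, Seq.map_id]

theorem mapL_consL {P Q : Sh A} (f : ShHom P Q) {k : ℕ} (b : A) (x : P.obj b)
    (y : CX k (hom b)) : mapL f (k + 1) (consL P b x y) = consL Q b (f.app b x) y := by
  induction y using Finsupp.induction_linear with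
  | zero => simp
  | add a c ha hc => simp [ha, hc]
  | single s n => simp [mapL_single, consL_single, Seq.map_cons]

/-- Linear extension of a function on generators. -/
noncomputable def lin {σ : Type u} {M : Type*} [AddCommGroup M] (f : σ → M) : (σ →₀ ℤ) →+ M :=
  Finsupp.liftAddHom fun s => zmultiplesHom M (f s)

theorem lin_single {σ : Type u} {M : Type*} [AddCommGroup M] (f : σ → M) (s : σ) (n : ℤ) :
    lin f (Finsupp.single s n) = n • f s := by
  simp [lin]

theorem single_eq_zsmul {σ : Type u} (s : σ) (n : ℤ) :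
    Finsupp.single s n = n • Finsupp.single s (1 : ℤ) := by
  simp

theorem hom_ext {σ : Type u} {M : Type*} [AddCommGroup M] {f g : (σ →₀ ℤ) →+ M}
    (h : ∀ s, f (Finsupp.single s 1) = g (Finsupp.single s 1)) (x : σ →₀ ℤ) : f x = g x := by
  induction x using Finsupp.induction_linear with
  | zero => simp
  | add a b ha hb => rw [map_add, map_add, ha, hb]
  | single s n => rw [single_eq_zsmul, map_zsmul, map_zsmul, h]

/-- The boundary. -/
noncomputable def bd : ∀ (k : ℕ) (P : Sh A), CX (k + 1) P →+ CX k P
  | 0, P => lin fun s => mapL (ShHom.yon P s.2.1) 0 (Finsupp.single s.2.2 1)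
  | k + 1, P => lin fun s =>
      mapL (ShHom.yon P s.2.1) (k + 1) (Finsupp.single s.2.2 1)
        - consL P s.1 s.2.1 (bd k (hom s.1) (Finsupp.single s.2.2 1))

theorem bd_zero_cons (P : Sh A) (b : A) (x : P.obj b) (y : CX 0 (hom b)) :
    bd 0 P (consL P b x y) = mapL (ShHom.yon P x) 0 y := by
  induction y using Finsupp.induction_linear with
  | zero => simp
  | add a c ha hc => simp [ha, hc]
  | single s n =>
      rw [single_eq_zsmul, map_zsmul, map_zsmul, map_zsmul, consL_single]
      refine congrArg (n • ·) ?_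
      exact (lin_single _ _ _).trans (one_smul _ _)

theorem bd_succ_cons (k : ℕ) (P : Sh A) (b : A) (x : P.obj b) (y : CX (k + 1) (hom b)) :
    bd (k + 1) P (consL P b x y)
      = mapL (ShHom.yon P x) (k + 1) y - consL P b x (bd k (hom b) y) := by
  induction y using Finsupp.induction_linear with
  | zero => simp
  | add a c ha hc => simp [ha, hc]; abel
  | single s n =>
      rw [single_eq_zsmul, map_zsmul, map_zsmul, map_zsmul, map_zsmul, map_zsmul, consL_single,
        ← smul_sub]
      refine congrArg (n • ·) ?_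
      exact (lin_single _ _ _).trans (one_smul _ _)

theorem bd_nat : ∀ (k : ℕ) {P Q : Sh A} (f : ShHom P Q) (x : CX (k + 1) P),
    mapL f k (bd k P x) = bd k Q (mapL f (k + 1) x) := by
  intro k P Q f x
  refine hom_ext (f := (mapL f k).comp (bd k P)) (g := (bd k Q).comp (mapL f (k + 1))) ?_ x
  intro s
  obtain ⟨b, y, t, rfl⟩ := Seq.exists_cons s
  simp only [AddMonoidHom.comp_apply]
  rw [← consL_single, mapL_consL]
  cases k with
  | zero => rw [bd_zero_cons, bd_zero_cons, mapL_mapL, ShHom.comp_yon]
  | succ k =>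
      rw [bd_succ_cons, bd_succ_cons, map_sub, mapL_mapL, mapL_consL, ShHom.comp_yon]

theorem bd_bd : ∀ (k : ℕ) (P : Sh A) (x : CX (k + 1 + 1) P), bd k P (bd (k + 1) P x) = 0 := by
  intro k
  induction k with
  | zero =>
      intro P x
      refine hom_ext (f := (bd 0 P).comp (bd 1 P)) (g := 0) ?_ x
      intro s
      obtain ⟨b, y, t, rfl⟩ := Seq.exists_cons s
      rw [AddMonoidHom.comp_apply, ← consL_single, bd_succ_cons, map_sub, bd_zero_cons,
        ← bd_nat, sub_self, AddMonoidHom.zero_apply]
  | succ k ih =>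
      intro P x
      refine hom_ext (f := (bd (k + 1) P).comp (bd (k + 1 + 1) P)) (g := 0) ?_ x
      intro s
      obtain ⟨b, y, t, rfl⟩ := Seq.exists_cons s
      rw [AddMonoidHom.comp_apply, ← consL_single, bd_succ_cons, map_sub, bd_succ_cons,
        ← bd_nat, ih, map_zero, sub_zero, sub_self, AddMonoidHom.zero_apply]

/-- The augmented chain complex of the category of elements of `P`. -/
noncomputable abbrev chains (P : Sh A) : Cx.{u} :=
  ⟨fun k => CX k P, fun _ => inferInstance, fun k => bd k P, fun k => bd_bd k P⟩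

/-- The chain map of a natural transformation. -/
noncomputable def chainsMap {P Q : Sh A} (f : ShHom P Q) : CxHom (chains P) (chains Q) :=
  ⟨fun k => mapL f k, fun k => bd_nat k f⟩

/-- A universal element, i.e. an initial object of the category of elements. -/
structure Univ (P : Sh A) where
  pt : A
  elt : P.obj pt
  inv : ∀ b, P.obj b → (pt ⟶ b)
  map_inv : ∀ b x, P.map (inv b x) elt = x
  inv_map : ∀ {b} (f : pt ⟶ b), inv b (P.map f elt) = f

/-- The inverse of the Yoneda map of a universal element. -/
def Univ.toHom {P : Sh A} (u : Univ P) : ShHom P (hom u.pt) :=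
  ⟨u.inv, fun {a b} f x => by
    conv_lhs => rw [← u.map_inv a x, ← P.map_comp]
    exact u.inv_map _⟩

theorem Univ.yon_comp_toHom {P : Sh A} (u : Univ P) :
    (ShHom.yon P u.elt).comp u.toHom = ShHom.id P := by
  ext b x
  exact u.map_inv b x

/-- A functor with a universal element has exact augmented chains. -/
theorem exact_of_univ {P : Sh A} (u : Univ P) (k : ℕ) : (chains P).Exact k := by
  intro x hx
  refine ⟨consL P u.pt u.elt (mapL u.toHom k x), ?_⟩
  show bd k P _ = _
  cases k with
  | zero => rw [bd_zero_cons, mapL_mapL, u.yon_comp_toHom, mapL_id]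
  | succ k =>
      rw [bd_succ_cons, mapL_mapL, u.yon_comp_toHom, mapL_id, ← bd_nat,
        show bd k P x = 0 from hx, map_zero, map_zero, sub_zero]

end Vale.Agent.P259.Cat
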