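import Vale.Agent.P259.Cat.ProfMap

/-!
# P259, module B: opposites, commas, categories of elements
-/

universe u

open CategoryTheory Opposite

namespace Vale.Agent.P259.Cat

theorem CxHom.exact_of_leftInverse {C D : Cx.{u}} (f : CxHom C D) (g : CxHom D C) (n : ℕ)
    (h : ∀ x, g.f n (f.f n x) = x) (hD : D.Exact n) : C.Exact n := by
  intro x hx
  obtain ⟨y, hy⟩ := hD _ (f.mem_cyc hx)
  exact ⟨g.f (n + 1) y, (g.comm n y).symm.trans ((congrArg (g.f n) hy).trans (h x))⟩

theorem CxHom.mapH_bijective_of_inverse {C D : Cx.{u}} (f : CxHom C D) (g : CxHom D C) (n : ℕ)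
    (h : ∀ x, g.f n (f.f n x) = x) (h' : ∀ x, f.f n (g.f n x) = x) :
    Function.Bijective (f.mapH n) := by
  refine Function.bijective_iff_has_inverse.2 ⟨g.mapH n, fun x => ?_, fun x => ?_⟩
  · obtain ⟨x, rfl⟩ := C.cls_surjective n x
    exact congrArg (C.cls n) (Subtype.ext (h x.1))
  · obtain ⟨x, rfl⟩ := D.cls_surjective n x
    exact congrArg (D.cls n) (Subtype.ext (h' x.1))

variable {A B : Type u} [SmallCategory A] [SmallCategory B]

/-- Exactness is invariant under isomorphism of functors. -/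
theorem exact_of_iso {P Q : Sh A} (f : ShHom P Q) (g : ShHom Q P)
    (h : ∀ b x, g.app b (f.app b x) = x) (n : ℕ) (hQ : (chains Q).Exact n) :
    (chains P).Exact n := by
  refine (chainsMap f).exact_of_leftInverse (chainsMap g) n (fun x => ?_) hQ
  have : g.comp f = ShHom.id P := ShHom.ext (funext fun b => funext (h b))
  exact (mapL_mapL g f n x).trans (by rw [this, mapL_id])

theorem pushL_id : ∀ (k : ℕ) {P : Sh A} (t : FHom (𝟭 A) P P), (∀ b x, t.app b x = x) →
    ∀ s, Seq.push (𝟭 A) k t s = s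
  | 0, _, _, _, _ => rfl
  | k + 1, P, t, h, s => by
      obtain ⟨b, x, r, rfl⟩ := Seq.exists_cons s
      rw [Seq.push_cons, pushL_id k (FHom.ofHom (𝟭 A) b) (fun _ _ => rfl) r, h]
      rfl

theorem nerveMap_id (n : ℕ) (x : (nerveCx A).H n) : (nerveMap (𝟭 A)).mapH n x = x := by
  obtain ⟨x, rfl⟩ := (nerveCx A).cls_surjective n x
  refine congrArg _ (Subtype.ext ?_)
  show pushL (FHom.ofOne (𝟭 A)) n x.1 = x.1
  refine hom_ext (g := AddMonoidHom.id _) (fun s => ?_) x.1
  rw [pushL_single, pushL_id n _ (fun _ _ => rfl)]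
  rfl

/-- The comma `φ / b`, as a functor on `Aᵒᵖ`. -/
abbrev commaSh (φ : A ⥤ B) (b : B) : Sh Aᵒᵖ where
  obj a := φ.obj a.unop ⟶ b
  map f x := φ.map f.unop ≫ x
  map_id a x := by simp
  map_comp f g x := by simp

/-- The two-variable functor of `φ`. -/
abbrev profOf (φ : A ⥤ B) : Prof B Aᵒᵖ where
  W b := commaSh φ b
  act g := ⟨fun _ x => x ≫ g, fun f x => Category.assoc _ _ _⟩
  act_id b a x := Category.comp_id x
  act_comp f g a x := (Category.assoc _ _ _).symm

/-- Identities are universal. -/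
def profOfUniv (φ : A ⥤ B) (a : Aᵒᵖ) : Univ ((profOf φ).flip a) where
  pt := φ.obj a.unop
  elt := 𝟙 _
  inv _ x := x
  map_inv _ x := Category.id_comp x
  inv_map f := Category.id_comp f

/-- From chains of `Aᵒᵖ` to chains of `B`. -/
noncomputable def sigmaOf (φ : A ⥤ B) (n : ℕ) : (nerveCx Aᵒᵖ).H n →+ (nerveCx B).H n :=
  (profOf φ).sigma (profOfUniv φ) n

/-- The comma of the identity has a universal element. -/
def commaIdUniv (b : B) : Univ (commaSh (𝟭 B) b) where
  pt := op b
  elt := 𝟙 b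
  inv _ x := x.op
  map_inv _ x := Category.comp_id x
  inv_map f := Quiver.Hom.unop_inj (Category.comp_id f.unop)

theorem sigmaOf_id_bijective (n : ℕ) : Function.Bijective (sigmaOf (𝟭 B) n) :=
  Prof.sigma_bijective _ _ n fun b k _ => exact_of_univ (commaIdUniv b) k

/-- The homology of `Aᵒᵖ` is the homology of `A`. -/
noncomputable def opEquiv (A : Type u) [SmallCategory A] (n : ℕ) :
    (nerveCx Aᵒᵖ).H n ≃+ (nerveCx A).H n :=
  AddEquiv.ofBijective (sigmaOf (𝟭 A) n) (sigmaOf_id_bijective n)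

theorem exact_op_iff (A : Type u) [SmallCategory A] (n : ℕ) :
    (nerveCx Aᵒᵖ).Exact n ↔ (nerveCx A).Exact n := by
  rw [Cx.exact_iff_subsingleton, Cx.exact_iff_subsingleton]
  exact (opEquiv A n).toEquiv.subsingleton_congr

/-- Compare the functor of `φ` with that of the identity of `B`. -/
def toIdHom (φ : A ⥤ B) : ProfHom (profOf φ) (profOf (𝟭 B)) where
  G1 := 𝟭 B
  G2 := φ.op
  app b := ⟨fun _ x => x, fun _ _ => rfl⟩
  nat _ _ _ := rfl

/-- The functoriality of the identity profunctor. -/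
def idIdHom (φ : A ⥤ B) : ProfHom (profOf (𝟭 A)) (profOf (𝟭 B)) where
  G1 := φ
  G2 := φ.op
  app a := ⟨fun _ x => φ.map x, fun f x => φ.map_comp f.unop x⟩
  nat f _ x := φ.map_comp x f

theorem nerveMap_op_bijective (φ : A ⥤ B) (n : ℕ)
    (h : ∀ b k, k ≤ n → (chains (commaSh φ b)).Exact k) :
    Function.Bijective ((nerveMap φ.op).mapH n) := by
  have h1 : Function.Bijective (sigmaOf φ n) := Prof.sigma_bijective _ _ n h
  have h2 := (toIdHom φ).sigma_natural (profOfUniv φ) (profOfUniv (𝟭 B)) n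
  have h3 : (sigmaOf (𝟭 B) n) ∘ ((nerveMap φ.op).mapH n) = sigmaOf φ n :=
    funext fun x => ((h2 x).symm.trans (nerveMap_id n _))
  exact ((sigmaOf_id_bijective (B := B) n).of_comp_iff' _).1 (h3 ▸ h1)

/-- **Functors with acyclic commas.** If the commas `φ / b` are acyclic through `n`, then `φ`
induces a bijection in degree `n`. -/
theorem nerveMap_bijective (φ : A ⥤ B) (n : ℕ)
    (h : ∀ b k, k ≤ n → (chains (commaSh φ b)).Exact k) :
    Function.Bijective ((nerveMap φ).mapH n) := by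
  have h2 := (idIdHom φ).sigma_natural (profOfUniv (𝟭 A)) (profOfUniv (𝟭 B)) n
  have h3 : ((nerveMap φ).mapH n) ∘ (sigmaOf (𝟭 A) n)
      = (sigmaOf (𝟭 B) n) ∘ ((nerveMap φ.op).mapH n) := funext h2
  refine (Function.Bijective.of_comp_iff _ (sigmaOf_id_bijective (B := A) n)).1 ?_
  rw [h3]
  exact (sigmaOf_id_bijective n).comp (nerveMap_op_bijective φ n h)

end Vale.Agent.P259.Cat
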