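import Vale.Agent.P259.Cat.Comma

/-!
# P259, module B: categories of elements, initial and terminal objects
-/

universe u

open CategoryTheory Opposite Limits

namespace Vale.Agent.P259.Cat

variable {A B : Type u} [SmallCategory A] [SmallCategory B]

/-- An element of `P`. -/
@[ext]
structure El (P : Sh A) : Type u where
  pt : A
  elt : P.obj pt

instance (P : Sh A) : Category.{u} (El P) where
  Hom e e' := {f : e.pt ⟶ e'.pt // P.map f e.elt = e'.elt}
  id e := ⟨𝟙 _, P.map_id _ _⟩
  comp f g := ⟨f.1 ≫ g.1, by rw [P.map_comp, f.2, g.2]⟩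
  id_comp f := Subtype.ext (Category.id_comp _)
  comp_id f := Subtype.ext (Category.comp_id _)
  assoc f g h := Subtype.ext (Category.assoc _ _ _)

/-- The projection of the category of elements. -/
def El.proj (P : Sh A) : El P ⥤ A where
  obj e := e.pt
  map f := f.1

/-- The tautological element. -/
def El.taut (P : Sh A) : FHom (El.proj P) (one (El P)) P :=
  ⟨fun e _ => e.elt, fun f _ => f.2.symm⟩

/-- Lifting a string starting under an element. -/
def El.lift (P : Sh A) : ∀ (k : ℕ) (e : El P), Seq A k (hom e.pt) → Seq (El P) k (hom e)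
  | 0, _, _ => PUnit.unit
  | k + 1, e, s =>
      Seq.cons (P := hom e) ⟨s.1, P.map s.2.1 e.elt⟩ ⟨s.2.1, rfl⟩
        (El.lift P k ⟨s.1, P.map s.2.1 e.elt⟩ s.2.2)

/-- Lifting a string. -/
def El.liftOne (P : Sh A) : ∀ k, Seq A k P → Seq (El P) k (one (El P))
  | 0, _ => PUnit.unit
  | k + 1, s => Seq.cons (P := one (El P)) ⟨s.1, s.2.1⟩ PUnit.unit (El.lift P k ⟨s.1, s.2.1⟩ s.2.2)

theorem El.push_lift (P : Sh A) : ∀ k (e : El P) (s : Seq A k (hom e.pt)),
    Seq.push (El.proj P) k (FHom.ofHom (El.proj P) e) (El.lift P k e s) = s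
  | 0, _, _ => rfl
  | k + 1, e, s => by
      obtain ⟨b, f, r, rfl⟩ := Seq.exists_cons s
      have h := El.push_lift P k ⟨b, P.map f e.elt⟩ r
      exact congrArg (fun t => (⟨b, f, t⟩ : Seq A (k + 1) (hom e.pt))) h

theorem El.lift_push (P : Sh A) : ∀ k (e : El P) (s : Seq (El P) k (hom e)),
    El.lift P k e (Seq.push (El.proj P) k (FHom.ofHom (El.proj P) e) s) = s
  | 0, _, _ => rfl
  | k + 1, e, s => by
      obtain ⟨⟨b, x⟩, ⟨f, hf⟩, r, rfl⟩ := Seq.exists_cons s
      change e.pt ⟶ b at f
      change P.map f e.elt = x at hf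
      subst hf
      exact congrArg (fun t => Seq.cons (P := hom e) (⟨b, P.map f e.elt⟩ : El P) ⟨f, rfl⟩ t)
        (El.lift_push P k ⟨b, P.map f e.elt⟩ r)

theorem El.push_liftOne (P : Sh A) : ∀ k (s : Seq A k P),
    Seq.push (El.proj P) k (El.taut P) (El.liftOne P k s) = s
  | 0, _ => rfl
  | k + 1, s => by
      obtain ⟨b, x, r, rfl⟩ := Seq.exists_cons s
      exact congrArg (fun t => (⟨b, x, t⟩ : Seq A (k + 1) P)) (El.push_lift P k ⟨b, x⟩ r)

theorem El.liftOne_push (P : Sh A) : ∀ k (s : Seq (El P) k (one (El P))),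
    El.liftOne P k (Seq.push (El.proj P) k (El.taut P) s) = s
  | 0, _ => rfl
  | k + 1, s => by
      obtain ⟨e, x, r, rfl⟩ := Seq.exists_cons s
      exact congrArg (fun t => Seq.cons (P := one (El P)) e PUnit.unit t) (El.lift_push P k e r)

theorem El.bij (P : Sh A) (k : ℕ) : Function.Bijective (pushL (El.taut P) k) := by
  refine Function.bijective_iff_has_inverse.2
    ⟨Finsupp.mapDomain (El.liftOne P k), fun x => ?_, fun x => ?_⟩
  · refine (Finsupp.mapDomain_comp (f := Seq.push (El.proj P) k (El.taut P))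
      (g := El.liftOne P k) (v := x)).symm.trans ?_
    rw [show El.liftOne P k ∘ Seq.push (El.proj P) k (El.taut P) = id from
      funext (El.liftOne_push P k)]
    exact Finsupp.mapDomain_id
  · refine (Finsupp.mapDomain_comp (f := El.liftOne P k)
      (g := Seq.push (El.proj P) k (El.taut P)) (v := x)).symm.trans ?_
    rw [show Seq.push (El.proj P) k (El.taut P) ∘ El.liftOne P k = id from
      funext (El.push_liftOne P k)]
    exact Finsupp.mapDomain_id

/-- **Chains of a functor are chains of its category of elements.** -/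
noncomputable def El.homologyEquiv (P : Sh A) (n : ℕ) :
    (nerveCx (El P)).H n ≃+ (chains P).H n := by
  refine AddEquiv.ofBijective ((chainsPush (El.taut P)).mapH n) ⟨?_, ?_⟩
  · rw [injective_iff_map_eq_zero]
    intro x hx
    obtain ⟨x, rfl⟩ := (nerveCx (El P)).cls_surjective n x
    rw [CxHom.mapH_cls, Cx.cls_eq_zero] at hx
    obtain ⟨y, hy⟩ := hx
    obtain ⟨y', rfl⟩ := (El.bij P (n + 1)).2 y
    refine ((nerveCx (El P)).cls_eq_zero x).2 ⟨y', (El.bij P n).1 ?_⟩
    exact ((chainsPush (El.taut P)).comm n y').trans hy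
  · intro x
    obtain ⟨x, rfl⟩ := (chains P).cls_surjective n x
    obtain ⟨y, hy⟩ := (El.bij P n).2 x.1
    have hc : y ∈ (nerveCx (El P)).cyc n := by
      cases n with
      | zero => trivial
      | succ n =>
          refine (El.bij P n).1 ?_
          rw [map_zero]
          refine ((chainsPush (El.taut P)).comm n y).trans ?_
          exact (congrArg (bd n P) hy).trans x.2
    exact ⟨(nerveCx (El P)).cls n ⟨y, hc⟩, congrArg _ (Subtype.ext hy)⟩

theorem El.exact_iff (P : Sh A) (n : ℕ) : (nerveCx (El P)).Exact n ↔ (chains P).Exact n := by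
  rw [Cx.exact_iff_subsingleton, Cx.exact_iff_subsingleton]
  exact (El.homologyEquiv P n).toEquiv.subsingleton_congr

/-- An initial object is a universal element of the terminal functor. -/
noncomputable def univOfInitial {i : A} (hi : IsInitial i) : Univ (one A) where
  pt := i
  elt := PUnit.unit
  inv b _ := hi.to b
  map_inv _ _ := rfl
  inv_map f := hi.hom_ext _ _

theorem exact_of_initial {i : A} (hi : IsInitial i) (n : ℕ) : (nerveCx A).Exact n :=
  exact_of_univ (univOfInitial hi) n

theorem exact_of_terminal {t : A} (ht : IsTerminal t) (n : ℕ) : (nerveCx A).Exact n :=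
  (exact_op_iff A n).1 (exact_of_univ (univOfInitial (initialOpOfTerminal ht)) n)

/-- A functor with a right adjoint has commas with universal elements. -/
def commaUnivOfAdj {L : A ⥤ B} {R : B ⥤ A} (adj : L ⊣ R) (b : B) : Univ (commaSh L b) where
  pt := op (R.obj b)
  elt := adj.counit.app b
  inv a x := ((adj.homEquiv a.unop b) x).op
  map_inv a x := by
    show L.map ((adj.homEquiv a.unop b) x) ≫ adj.counit.app b = x
    exact ((adj.homEquiv_counit (g := (adj.homEquiv a.unop b) x)).symm.trans
      ((adj.homEquiv a.unop b).symm_apply_apply x))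
  inv_map {a} f := by
    refine Quiver.Hom.unop_inj ?_
    show (adj.homEquiv a.unop b) (L.map f.unop ≫ adj.counit.app b) = f.unop
    exact (congrArg (adj.homEquiv a.unop b) (adj.homEquiv_counit (g := f.unop)).symm).trans
      ((adj.homEquiv a.unop b).apply_symm_apply f.unop)

theorem nerveMap_bijective_of_adj {L : A ⥤ B} {R : B ⥤ A} (adj : L ⊣ R) (n : ℕ) :
    Function.Bijective ((nerveMap L).mapH n) :=
  nerveMap_bijective L n fun b k _ => exact_of_univ (commaUnivOfAdj adj b) k

theorem nerveMap_bijective_of_equivalence (e : A ≌ B) (n : ℕ) :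
    Function.Bijective ((nerveMap e.functor).mapH n) :=
  nerveMap_bijective_of_adj e.toAdjunction n

end Vale.Agent.P259.Cat
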