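import Vale.Agent.P259.Cat.Transgression

/-!
# P259, module B: functoriality in the set-valued functor, and naturality of the transgression
-/

universe u

open CategoryTheory

namespace Vale.Agent.P259.Cat

variable {A A' A'' : Type u} [SmallCategory A] [SmallCategory A'] [SmallCategory A'']

/-- Composition of natural maps along functors. -/
def FHom.trans {F : A ⥤ A'} {G : A' ⥤ A''} {P : Sh A} {Q : Sh A'} {R : Sh A''}
    (t : FHom F P Q) (t' : FHom G Q R) : FHom (F ⋙ G) P R :=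
  ⟨fun b x => t'.app _ (t.app b x), fun f x => by rw [t.nat, t'.nat]; rfl⟩

theorem Seq.push_push {F : A ⥤ A'} {G : A' ⥤ A''} : ∀ (k : ℕ) {P : Sh A} {Q : Sh A'} {R : Sh A''}
    (t : FHom F P Q) (t' : FHom G Q R) (s : Seq A k P),
    Seq.push G k t' (Seq.push F k t s) = Seq.push (F ⋙ G) k (t.trans t') s
  | 0, _, _, _, _, _, _ => rfl
  | k + 1, P, Q, R, t, t', s => by
      obtain ⟨b, x, r, rfl⟩ := Seq.exists_cons s
      rw [Seq.push_cons, Seq.push_cons, Seq.push_cons, Seq.push_push k]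
      rfl

theorem pushL_pushL {F : A ⥤ A'} {G : A' ⥤ A''} {P : Sh A} {Q : Sh A'} {R : Sh A''}
    (t : FHom F P Q) (t' : FHom G Q R) (k : ℕ) (x : CX k P) :
    pushL t' k (pushL t k x) = pushL (t.trans t') k x := by
  induction x using Finsupp.induction_linear with
  | zero => simp
  | add a b ha hb => simp [ha, hb]
  | single s n => simp [pushL_single, Seq.push_push]

theorem Seq.push_idFunctor : ∀ (k : ℕ) {P Q : Sh A} (t : FHom (𝟭 A) P Q) (g : ShHom P Q),
    (∀ b x, t.app b x = g.app b x) → ∀ s, Seq.push (𝟭 A) k t s = Seq.map k g s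
  | 0, _, _, _, _, _, _ => rfl
  | k + 1, _, _, t, g, h, s => by
      obtain ⟨b, x, r, rfl⟩ := Seq.exists_cons s
      rw [Seq.push_cons, pushL_id k (FHom.ofHom (𝟭 A) b) (fun _ _ => rfl) r, h]
      rfl

/-- The functor on elements of a transformation. -/
def El.map {P Q : Sh A} (f : ShHom P Q) : El P ⥤ El Q where
  obj e := ⟨e.pt, f.app e.pt e.elt⟩
  map {_ e'} g := ⟨g.1, (f.nat g.1 _).symm.trans (congrArg (f.app e'.pt) g.2)⟩

theorem El.homologyEquiv_natural {P Q : Sh A} (f : ShHom P Q) (n : ℕ) (x : (nerveCx (El P)).H n) :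
    El.homologyEquiv Q n ((nerveMap (El.map f)).mapH n x)
      = (chainsMap f).mapH n (El.homologyEquiv P n x) := by
  obtain ⟨x, rfl⟩ := (nerveCx (El P)).cls_surjective n x
  refine congrArg ((chains Q).cls n) (Subtype.ext ?_)
  show pushL (El.taut Q) n (pushL (FHom.ofOne (El.map f)) n x.1)
    = mapL f n (pushL (El.taut P) n x.1)
  rw [pushL_pushL, mapL_pushL]
  rfl

end Vale.Agent.P259.Cat

namespace Vale.Agent.P259.Cat

/-- The map on cokernels of a map of double complexes. -/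
def DblHom.mapT {K L : Dbl.{u}} (F : DblHom K L) (k : ℕ) : K.T k →+ L.T k :=
  QuotientAddGroup.map _ _ (((F.col 1).cycMap k : K.vc 1 k →+ L.vc 1 k)) fun x hx => by
    obtain ⟨y, f, hf, h⟩ := (K.tcls_eq_zero x).1 ((QuotientAddGroup.eq_zero_iff x).2 hx)
    refine (QuotientAddGroup.eq_zero_iff (show L.vc 1 k from (F.col 1).cycMap k x)).1
      ((L.tcls_eq_zero ((F.col 1).cycMap k x)).2
        ⟨F.f 1 (k + 1) y, F.f 2 k f, (F.col 2).mem_cyc hf, ?_⟩)
    rw [← F.commv, ← F.commh, ← map_add, h]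
    rfl

theorem DblHom.mapT_toT {K L : Dbl.{u}} (F : DblHom K L) (k : ℕ) (x : K.G 1 k) :
    F.mapT k (K.toT k x) = L.toT k (F.mapG 1 k x) := by
  obtain ⟨x, rfl⟩ := K.gcls_surjective 1 k x
  rfl

namespace Prof

variable {A B : Type u} [SmallCategory A] [SmallCategory B] (V : Prof A B) {k : ℕ}

/-- The class of a fibre in the cokernel. -/
noncomputable def inT (a : A) : (chains (V.W a)).H k →+ V.dbl.T k :=
  QuotientAddGroup.lift ((chains (V.W a)).bnd k) ((V.dbl.tcls k).comp (V.inCol a)) fun y hy => by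
    obtain ⟨z, hz⟩ := hy
    refine (V.dbl.tcls_eq_zero _).2
      ⟨V.pair 0 (k + 1) a z (Finsupp.single (Seq.nil _) 1), 0, zero_mem _, ?_⟩
    rw [map_zero, add_zero]
    show V.dv 1 k _ = _
    rw [dv_pair, show bd k (V.W a) z = _ from hz]
    rfl

theorem inT_cls (a : A) (y : (chains (V.W a)).cyc k) :
    V.inT a ((chains (V.W a)).cls k y) = V.dbl.tcls k (V.inCol a y) := rfl

theorem inT_bijective {M : Type u} [AddCommGroup M] (θ : ∀ a, (chains (V.W a)).H k →+ M)
    (hθ : ∀ {a b : A} (f : a ⟶ b) x, θ b ((chainsMap (V.act f)).mapH k x) = θ a x)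
    (hA : ∀ a b : A, Zigzag a b) (hb : ∀ a, Function.Bijective (θ a)) (a : A) :
    Function.Bijective (V.inT (k := k) a) := by
  have : Nonempty A := ⟨a⟩
  have h := V.coinv_bijective θ hθ hA hb
  have hc : (V.coinv θ hθ) ∘ (V.inT a) = θ a := by
    funext x
    obtain ⟨x, rfl⟩ := (chains (V.W a)).cls_surjective k x
    exact (V.coinv_tcls θ hθ _).trans (V.total_inCol θ a x)
  exact (h.of_comp_iff' _).1 (hc ▸ hb a)

/-- The transgression from one fibre, defined when the `B`-side is acyclic. -/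
noncomputable def transMap (U : ∀ b, Univ (V.flip b)) (h0 : (nerveCx B).Exact k)
    (h1 : (nerveCx B).Exact (k + 1)) (a : A) :
    (chains (V.W a)).H k →+ (nerveCx A).H (k + 1) :=
  (V.row0Equiv (k + 1)).toAddMonoidHom.comp <| (V.dbl.toRow (k + 1)).comp <|
    (Dbl.stair (V.rowsExact U) k 1 (k + 1) (by omega)).comp <|
      (AddEquiv.ofBijective (V.dbl.toT k)
        (Dbl.toT_bijective (V.rowsExact U) k h0 h1)).symm.toAddMonoidHom.comp (V.inT a)

theorem transMap_bijective (U : ∀ b, Univ (V.flip b)) (h0 : (nerveCx B).Exact k)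
    (h1 : (nerveCx B).Exact (k + 1)) (hf : ∀ a j, j < k → (chains (V.W a)).Exact j)
    {M : Type u} [AddCommGroup M] (θ : ∀ a, (chains (V.W a)).H k →+ M)
    (hθ : ∀ {a b : A} (f : a ⟶ b) x, θ b ((chainsMap (V.act f)).mapH k x) = θ a x)
    (hA : ∀ a b : A, Zigzag a b) (hb : ∀ a, Function.Bijective (θ a)) (a : A) :
    Function.Bijective (V.transMap U h0 h1 a) :=
  (V.row0Equiv (k + 1)).bijective.comp ((V.dbl.toRow_bijective (k + 1)).comp
    ((Dbl.stair_bijective (V.rowsExact U) k 1 (k + 1) (by omega)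
      fun p q hq => V.col_exact p q fun a => hf a q hq).comp
        ((AddEquiv.ofBijective (V.dbl.toT k) (Dbl.toT_bijective (V.rowsExact U) k h0 h1)).symm.bijective.comp
          (V.inT_bijective θ hθ hA hb a))))

end Prof

namespace ProfHom

variable {A B A' B' : Type u} [SmallCategory A] [SmallCategory B] [SmallCategory A']
  [SmallCategory B'] {V : Prof A B} {V' : Prof A' B'} (F : ProfHom V V') {k : ℕ}

theorem mapT_inT (a : A) (x : (chains (V.W a)).H k) :
    F.dblHom.mapT k (V.inT a x)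
      = V'.inT (F.G1.obj a) ((chainsPush (F.app a)).mapH k x) := by
  obtain ⟨x, rfl⟩ := (chains (V.W a)).cls_surjective k x
  refine congrArg (V'.dbl.tcls k) (Subtype.ext ?_)
  show F.mapX 1 k (V.pair 0 k a x.1 (Finsupp.single (Seq.nil _) 1)) = _
  rw [mapX_pair, pushL_single]
  rfl

theorem transMap_natural (U : ∀ b, Univ (V.flip b)) (U' : ∀ b, Univ (V'.flip b))
    (h0 : (nerveCx B).Exact k) (h1 : (nerveCx B).Exact (k + 1))
    (h0' : (nerveCx B').Exact k) (h1' : (nerveCx B').Exact (k + 1))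
    (a : A) (x : (chains (V.W a)).H k) :
    (nerveMap F.G1).mapH (k + 1) (V.transMap U h0 h1 a x)
      = V'.transMap U' h0' h1' (F.G1.obj a) ((chainsPush (F.app a)).mapH k x) := by
  have hrow : ∀ y : (V.dbl.row 0).H (k + 1), (nerveMap F.G1).mapH (k + 1) (V.row0Equiv (k + 1) y)
      = V'.row0Equiv (k + 1) ((F.dblHom.row 0).mapH (k + 1) y) := by
    intro y
    obtain ⟨y, rfl⟩ := (V.dbl.row 0).cls_surjective (k + 1) y
    refine congrArg _ (Subtype.ext ?_)
    show pushL (FHom.ofOne F.G1) (k + 1) (V.ofRow0 (k + 1) y.1)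
      = V'.ofRow0 (k + 1) (F.mapX (k + 1) 0 y.1)
    conv_rhs => rw [← V.toRow0_ofRow0 (k + 1) y.1, F.mapX_row0, V'.ofRow0_toRow0]
  have hto : ∀ g : V.dbl.G (k + 1) 0, (F.dblHom.row 0).mapH (k + 1) (V.dbl.toRow (k + 1) g)
      = V'.dbl.toRow (k + 1) (F.dblHom.mapG (k + 1) 0 g) := by
    intro g
    obtain ⟨g, rfl⟩ := V.dbl.gcls_surjective (k + 1) 0 g
    rfl
  refine (hrow _).trans (congrArg (V'.row0Equiv (k + 1)) ((hto _).trans (congrArg _ ?_)))
  refine (F.dblHom.mapG_stair (V.rowsExact U) (V'.rowsExact U') k 1 (k + 1) _ _).trans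
    (congrArg _ ?_)
  refine (AddEquiv.ofBijective (V'.dbl.toT k)
    (Dbl.toT_bijective (V'.rowsExact U') k h0' h1')).eq_symm_apply.2 ?_
  show V'.dbl.toT k (F.dblHom.mapG 1 k _) = V'.inT _ _
  rw [← DblHom.mapT_toT, ← F.mapT_inT]
  exact congrArg (F.dblHom.mapT k) ((AddEquiv.ofBijective (V.dbl.toT k)
    (Dbl.toT_bijective (V.rowsExact U) k h0 h1)).apply_symm_apply _)

end ProfHom

end Vale.Agent.P259.Cat

namespace Vale.Agent.P259.Cat

variable {A A' : Type u} [SmallCategory A] [SmallCategory A'] {F : A ⥤ A'} {P : Sh A} {Q : Sh A'}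

/-- The functor on elements of a natural map along a functor. -/
def El.pushFunctor (t : FHom F P Q) : El P ⥤ El Q where
  obj e := ⟨F.obj e.pt, t.app e.pt e.elt⟩
  map {_ e'} g := ⟨F.map g.1, (t.nat g.1 _).symm.trans (congrArg (t.app e'.pt) g.2)⟩
  map_id _ := Subtype.ext (F.map_id _)
  map_comp f g := Subtype.ext (F.map_comp f.1 g.1)

theorem El.homologyEquiv_push (t : FHom F P Q) (n : ℕ) (x : (nerveCx (El P)).H n) :
    El.homologyEquiv Q n ((nerveMap (El.pushFunctor t)).mapH n x)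
      = (chainsPush t).mapH n (El.homologyEquiv P n x) := by
  obtain ⟨x, rfl⟩ := (nerveCx (El P)).cls_surjective n x
  refine congrArg ((chains Q).cls n) (Subtype.ext ?_)
  show pushL (El.taut Q) n (pushL (FHom.ofOne (El.pushFunctor t)) n x.1)
    = pushL t n (pushL (El.taut P) n x.1)
  rw [pushL_pushL, pushL_pushL]
  rfl

end Vale.Agent.P259.Cat
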