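import Vale.Agent.P259.Cat.Push

/-!
# P259, module B: the double complex of a functor of two variables
-/

universe u

open CategoryTheory

namespace Vale.Agent.P259.Cat

/-- A functor of two variables `A × B → Set`, covariant in both, curried. -/
structure Prof (A B : Type u) [SmallCategory A] [SmallCategory B] : Type (u + 1) where
  W : A → Sh B
  act : ∀ {a a' : A}, (a ⟶ a') → ShHom (W a) (W a')
  act_id : ∀ (a : A) b (x : (W a).obj b), (act (𝟙 a)).app b x = x
  act_comp : ∀ {a a' a'' : A} (f : a ⟶ a') (g : a' ⟶ a'') b (x : (W a).obj b),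
    (act (f ≫ g)).app b x = (act g).app b ((act f).app b x)

namespace Prof

variable {A B : Type u} [SmallCategory A] [SmallCategory B] (V : Prof A B)

/-- The other partial functor. -/
abbrev flip (b : B) : Sh A where
  obj a := (V.W a).obj b
  map f x := (V.act f).app b x
  map_id a x := V.act_id a b x
  map_comp f g x := V.act_comp f g b x

/-- Generators of the double complex. -/
def Idx : ℕ → ℕ → Type u
  | 0, q => Seq B q (one B)
  | p + 1, q => Σ a : A, Seq B q (V.W a) × Seq A p (hom a)

/-- The groups of the double complex. -/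
abbrev KX (p q : ℕ) : Type u := V.Idx p q →₀ ℤ

/-- A generator. -/
def gen (p q : ℕ) (a : A) (s : Seq B q (V.W a)) (t : Seq A p (hom a)) : V.Idx (p + 1) q :=
  ⟨a, s, t⟩

theorem exists_gen {p q : ℕ} (g : V.Idx (p + 1) q) : ∃ a s t, g = V.gen p q a s t :=
  ⟨g.1, g.2.1, g.2.2, rfl⟩

/-- The bilinear pairing. -/
noncomputable def pair (p q : ℕ) (a : A) :
    CX q (V.W a) →+ CX p (hom a) →+ V.KX (p + 1) q :=
  lin fun s => Finsupp.mapDomain.addMonoidHom (V.gen p q a s)

theorem pair_single (p q : ℕ) (a : A) (s : Seq B q (V.W a)) (t : Seq A p (hom a)) (m n : ℤ) :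
    V.pair p q a (Finsupp.single s m) (Finsupp.single t n)
      = Finsupp.single (V.gen p q a s t) (m * n) := by
  simp [pair, lin_single]

omit [SmallCategory A] [SmallCategory B] in
theorem bilin_ext {σ τ : Type u} {M : Type*} [AddCommGroup M]
    {F G : (σ →₀ ℤ) →+ (τ →₀ ℤ) →+ M}
    (h : ∀ s t, F (Finsupp.single s 1) (Finsupp.single t 1)
      = G (Finsupp.single s 1) (Finsupp.single t 1)) (y : σ →₀ ℤ) (z : τ →₀ ℤ) :
    F y z = G y z := by
  rw [hom_ext (f := F) (g := G) (fun s => AddMonoidHom.ext fun z => hom_ext (h s) z) y]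

theorem pair_ext_gen {p q : ℕ} {M : Type*} [AddCommGroup M] {F G : V.KX (p + 1) q →+ M}
    (h : ∀ a y z, F (V.pair p q a y z) = G (V.pair p q a y z)) (x : V.KX (p + 1) q) :
    F x = G x := by
  refine hom_ext (fun g => ?_) x
  obtain ⟨a, s, t, rfl⟩ := V.exists_gen g
  have := h a (Finsupp.single s 1) (Finsupp.single t 1)
  rwa [pair_single, mul_one] at this

/-- Moving the base point along the first arrow of a string. -/
noncomputable def shift (p q : ℕ) (a : A) :
    CX q (V.W a) →+ CX (p + 1) (hom a) →+ V.KX (p + 1) q :=
  lin fun s => lin fun t => V.pair p q t.1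
    (mapL (V.act t.2.1) q (Finsupp.single s 1)) (Finsupp.single t.2.2 1)

theorem shift_single_cons (p q : ℕ) (a a' : A) (f : a ⟶ a') (s : Seq B q (V.W a))
    (t : Seq A p (hom a')) :
    V.shift p q a (Finsupp.single s 1) (Finsupp.single (Seq.cons a' f t) 1)
      = V.pair p q a' (mapL (V.act f) q (Finsupp.single s 1)) (Finsupp.single t 1) := by
  rw [shift, lin_single, one_smul]
  exact (lin_single _ _ _).trans (one_smul _ _)

theorem shift_cons (p q : ℕ) (a a' : A) (f : a ⟶ a') (y : CX q (V.W a))
    (z : CX p (hom a')) :
    V.shift p q a y (consL (hom a) a' f z) = V.pair p q a' (mapL (V.act f) q y) z := by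
  induction y using Finsupp.induction_linear with
  | zero => simp
  | add a b ha hb => simp [ha, hb]
  | single s m =>
    induction z using Finsupp.induction_linear with
    | zero => simp
    | add c d hc hd =>
        simp only [map_add] at hc hd ⊢
        rw [hc, hd]
    | single t n =>
        rw [single_eq_zsmul s, single_eq_zsmul t]
        simp only [map_zsmul, AddMonoidHom.smul_apply]
        rw [consL_single, shift_single_cons]

/-- Horizontal differential. -/
noncomputable def dh : ∀ p q, V.KX (p + 1) q →+ V.KX p q
  | 0, q => lin fun g => mapL (ShHom.toOne (V.W g.1)) q (Finsupp.single g.2.1 1)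
  | p + 1, q => lin fun g =>
      V.shift p q g.1 (Finsupp.single g.2.1 1) (Finsupp.single g.2.2 1)
        - V.pair p q g.1 (Finsupp.single g.2.1 1) (bd p (hom g.1) (Finsupp.single g.2.2 1))

/-- Vertical differential. -/
noncomputable def dv : ∀ p q, V.KX p (q + 1) →+ V.KX p q
  | 0, q => bd q (one B)
  | p + 1, q => lin fun g =>
      V.pair p q g.1 (bd q (V.W g.1) (Finsupp.single g.2.1 1)) (Finsupp.single g.2.2 1)

theorem dh_zero_pair_single (q : ℕ) (a : A) (s : Seq B q (V.W a)) (t : Seq A 0 (hom a)) :
    V.dh 0 q (V.pair 0 q a (Finsupp.single s 1) (Finsupp.single t 1))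
      = mapL (ShHom.toOne (V.W a)) q (Finsupp.single s 1) := by
  rw [pair_single, mul_one]
  exact (lin_single _ _ _).trans (one_smul _ _)

theorem dh_zero_pair (q : ℕ) (a : A) (y : CX q (V.W a)) (t : Seq A 0 (hom a)) :
    V.dh 0 q (V.pair 0 q a y (Finsupp.single t 1)) = mapL (ShHom.toOne (V.W a)) q y := by
  induction y using Finsupp.induction_linear with
  | zero => simp only [map_zero, AddMonoidHom.zero_apply]; rfl
  | add b c hb hc => simp only [map_add, AddMonoidHom.add_apply]; rw [hb, hc]; rfl
  | single s n =>
      rw [single_eq_zsmul s]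
      simp only [map_zsmul, AddMonoidHom.smul_apply]
      rw [dh_zero_pair_single]; rfl

theorem dh_succ_pair (p q : ℕ) (a : A) (y : CX q (V.W a)) (z : CX (p + 1) (hom a)) :
    V.dh (p + 1) q (V.pair (p + 1) q a y z)
      = V.shift p q a y z - V.pair p q a y (bd p (hom a) z) := by
  induction y using Finsupp.induction_linear with
  | zero => simp
  | add b c hb hc => simp only [map_add, AddMonoidHom.add_apply]; rw [hb, hc]; abel
  | single s m =>
    induction z using Finsupp.induction_linear with
    | zero => simp
    | add c d hc hd => simp only [map_add] at hc hd ⊢; rw [hc, hd]; abel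
    | single t n =>
        rw [single_eq_zsmul s, single_eq_zsmul t]
        simp only [map_zsmul, AddMonoidHom.smul_apply]
        rw [pair_single, mul_one, ← smul_sub, ← smul_sub]
        refine congrArg (fun w => n • (m • w)) ?_
        exact (lin_single _ _ _).trans (one_smul _ _)

theorem dv_pair (p q : ℕ) (a : A) (y : CX (q + 1) (V.W a)) (z : CX p (hom a)) :
    V.dv (p + 1) q (V.pair p (q + 1) a y z) = V.pair p q a (bd q (V.W a) y) z := by
  induction y using Finsupp.induction_linear with
  | zero => simp
  | add b c hb hc => simp only [map_add, AddMonoidHom.add_apply]; rw [hb, hc]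
  | single s m =>
    induction z using Finsupp.induction_linear with
    | zero => simp
    | add c d hc hd => simp only [map_add] at hc hd ⊢; rw [hc, hd]
    | single t n =>
        rw [single_eq_zsmul s, single_eq_zsmul t]
        simp only [map_zsmul, AddMonoidHom.smul_apply]
        rw [pair_single, mul_one]
        refine congrArg (fun w => n • (m • w)) ?_
        exact (lin_single _ _ _).trans (one_smul _ _)

theorem act_toOne {a a' : A} (f : a ⟶ a') :
    (ShHom.toOne (V.W a')).comp (V.act f) = ShHom.toOne (V.W a) := rfl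

theorem act_act {a a' a'' : A} (f : a ⟶ a') (g : a' ⟶ a'') :
    (V.act g).comp (V.act f) = V.act (f ≫ g) := by
  ext b x
  exact (V.act_comp f g b x).symm

theorem shift_mapL_yon (p q : ℕ) {a a' : A} (f : a ⟶ a') (y : CX q (V.W a))
    (z : CX (p + 1) (hom a')) :
    V.shift p q a y (mapL (ShHom.yon (hom a) f) (p + 1) z)
      = V.shift p q a' (mapL (V.act f) q y) z := by
  induction z using Finsupp.induction_linear with
  | zero => simp
  | add c d hc hd => simp only [map_add] at hc hd ⊢; rw [hc, hd]
  | single t n =>
      obtain ⟨a'', g, r, rfl⟩ := Seq.exists_cons t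
      rw [← consL_single, mapL_consL, shift_cons, shift_cons, mapL_mapL, act_act]
      rfl

theorem hh_aux : ∀ p q (x : V.KX (p + 1 + 1) q), V.dh p q (V.dh (p + 1) q x) = 0 := by
  intro p q x
  refine V.pair_ext_gen (F := (V.dh p q).comp (V.dh (p + 1) q)) (G := 0) ?_ x
  intro a y z
  rw [AddMonoidHom.comp_apply, AddMonoidHom.zero_apply, dh_succ_pair, map_sub, sub_eq_zero]
  induction z using Finsupp.induction_linear with
  | zero => simp
  | add c d hc hd => simp only [map_add] at hc hd ⊢; rw [hc, hd]
  | single t n =>
      obtain ⟨a', f, r, rfl⟩ := Seq.exists_cons t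
      rw [← consL_single, shift_cons]
      cases p with
      | zero =>
          rw [bd_zero_cons, single_eq_zsmul r]
          simp only [map_zsmul]
          rw [dh_zero_pair, mapL_single, dh_zero_pair, mapL_mapL, act_toOne]
      | succ p =>
          rw [bd_succ_cons, map_sub, map_sub, dh_succ_pair, dh_succ_pair, dh_succ_pair,
            shift_mapL_yon, shift_cons, ← bd_nat]
          have h2 : ∀ w : CX (p + 1) (hom a'),
              bd p (hom a) (consL (hom a) a' f (bd p (hom a') w))
                = mapL (ShHom.yon (hom a) f) p (bd p (hom a') w) := by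
            intro w
            cases p with
            | zero => rw [bd_zero_cons]
            | succ p => rw [bd_succ_cons, bd_bd, map_zero, sub_zero]
          rw [h2]
          abel

theorem vv_aux : ∀ p q (x : V.KX p (q + 1 + 1)), V.dv p q (V.dv p (q + 1) x) = 0 := by
  intro p q x
  cases p with
  | zero => exact bd_bd q (one B) x
  | succ p =>
      refine V.pair_ext_gen (F := (V.dv (p + 1) q).comp (V.dv (p + 1) (q + 1))) (G := 0) ?_ x
      intro a y z
      rw [AddMonoidHom.comp_apply, AddMonoidHom.zero_apply, dv_pair, dv_pair, bd_bd, map_zero,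
        AddMonoidHom.zero_apply]

theorem shift_bd (p q : ℕ) (a : A) (y : CX (q + 1) (V.W a)) (z : CX (p + 1) (hom a)) :
    V.dv (p + 1) q (V.shift p (q + 1) a y z) = V.shift p q a (bd q (V.W a) y) z := by
  induction z using Finsupp.induction_linear with
  | zero => simp
  | add c d hc hd => simp only [map_add] at hc hd ⊢; rw [hc, hd]
  | single t n =>
      obtain ⟨a', f, r, rfl⟩ := Seq.exists_cons t
      rw [← consL_single, shift_cons, shift_cons, dv_pair, bd_nat]

theorem sq_aux : ∀ p q (x : V.KX (p + 1) (q + 1)),
    V.dh p q (V.dv (p + 1) q x) = V.dv p q (V.dh p (q + 1) x) := by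
  intro p q x
  refine V.pair_ext_gen (F := (V.dh p q).comp (V.dv (p + 1) q))
    (G := (V.dv p q).comp (V.dh p (q + 1))) ?_ x
  intro a y z
  simp only [AddMonoidHom.comp_apply]
  rw [dv_pair]
  cases p with
  | zero =>
      induction z using Finsupp.induction_linear with
      | zero => simp
      | add c d hc hd => simp only [map_add] at hc hd ⊢; rw [hc, hd]
      | single t n =>
          rw [single_eq_zsmul t]
          simp only [map_zsmul]
          rw [dh_zero_pair, dh_zero_pair, bd_nat]
          rfl
  | succ p => rw [dh_succ_pair, dh_succ_pair, map_sub, dv_pair, shift_bd]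

/-- The double complex of `V`. -/
noncomputable abbrev dbl : Dbl.{u} :=
  ⟨fun p q => V.KX p q, fun _ _ => inferInstance, fun p q => V.dh p q, fun p q => V.dv p q,
    fun p q => V.hh_aux p q, fun p q => V.vv_aux p q, fun p q => V.sq_aux p q⟩

end Prof

end Vale.Agent.P259.Cat
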