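import Vale.Agent.P259.Cat.Rows

/-!
# P259, module B: maps of two-variable functors, and the comparison theorems
-/

universe u

open CategoryTheory

namespace Vale.Agent.P259.Cat

variable {A B A' B' : Type u} [SmallCategory A] [SmallCategory B] [SmallCategory A']
  [SmallCategory B']

/-- A map of two-variable functors along a pair of functors. -/
structure ProfHom (V : Prof A B) (V' : Prof A' B') : Type u where
  G1 : A ⥤ A'
  G2 : B ⥤ B'
  app : ∀ a, FHom G2 (V.W a) (V'.W (G1.obj a))
  nat : ∀ {a a' : A} (f : a ⟶ a') (b : B) (x : (V.W a).obj b),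
    (app a').app b ((V.act f).app b x)
      = (V'.act (G1.map f)).app (G2.obj b) ((app a).app b x)

namespace ProfHom

variable {V : Prof A B} {V' : Prof A' B'} (F : ProfHom V V')

/-- The map on the groups of the double complexes. -/
noncomputable def mapX : ∀ p q, V.KX p q →+ V'.KX p q
  | 0, q => pushL (FHom.ofOne F.G2) q
  | p + 1, q => lin fun g => V'.pair p q (F.G1.obj g.1)
      (pushL (F.app g.1) q (Finsupp.single g.2.1 1))
      (pushL (FHom.ofHom F.G1 g.1) p (Finsupp.single g.2.2 1))

theorem mapX_pair (p q : ℕ) (a : A) (y : CX q (V.W a)) (z : CX p (hom a)) :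
    F.mapX (p + 1) q (V.pair p q a y z)
      = V'.pair p q (F.G1.obj a) (pushL (F.app a) q y) (pushL (FHom.ofHom F.G1 a) p z) := by
  induction y using Finsupp.induction_linear with
  | zero => simp
  | add b c hb hc => simp only [map_add, AddMonoidHom.add_apply]; rw [hb, hc]
  | single s m =>
    induction z using Finsupp.induction_linear with
    | zero => simp
    | add c d hc hd => simp only [map_add] at hc hd ⊢; rw [hc, hd]
    | single t n =>
        rw [single_eq_zsmul s, single_eq_zsmul t]
        simp only [map_zsmul, AddMonoidHom.smul_apply]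
        rw [Prof.pair_single, mul_one]
        refine congrArg (fun w => n • (m • w)) ?_
        exact (lin_single _ _ _).trans (one_smul _ _)

theorem mapX_shift (p q : ℕ) (a : A) (y : CX q (V.W a)) (z : CX (p + 1) (hom a)) :
    F.mapX (p + 1) q (V.shift p q a y z)
      = V'.shift p q (F.G1.obj a) (pushL (F.app a) q y)
          (pushL (FHom.ofHom F.G1 a) (p + 1) z) := by
  induction z using Finsupp.induction_linear with
  | zero => simp
  | add c d hc hd => simp only [map_add] at hc hd ⊢; rw [hc, hd]
  | single t n =>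
      obtain ⟨a', f, r, rfl⟩ := Seq.exists_cons t
      rw [← consL_single, Prof.shift_cons, pushL_consL, Prof.shift_cons, mapX_pair, pushL_mapL,
        mapL_pushL]
      refine congrArg (fun w => V'.pair p q (F.G1.obj a') w _) ?_
      refine congrArg (fun t => pushL t q y) ?_
      ext b x
      exact F.nat f b x

theorem mapX_dv (p q : ℕ) (x : V.KX p (q + 1)) :
    F.mapX p q (V.dv p q x) = V'.dv p q (F.mapX p (q + 1) x) := by
  cases p with
  | zero => exact bd_push q (FHom.ofOne F.G2) x
  | succ p =>
      refine V.pair_ext_gen (F := (F.mapX (p + 1) q).comp (V.dv (p + 1) q))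
        (G := (V'.dv (p + 1) q).comp (F.mapX (p + 1) (q + 1))) ?_ x
      intro a y z
      simp only [AddMonoidHom.comp_apply]
      rw [Prof.dv_pair, mapX_pair, mapX_pair, Prof.dv_pair, bd_push]

theorem mapX_dh (p q : ℕ) (x : V.KX (p + 1) q) :
    F.mapX p q (V.dh p q x) = V'.dh p q (F.mapX (p + 1) q x) := by
  refine V.pair_ext_gen (F := (F.mapX p q).comp (V.dh p q))
    (G := (V'.dh p q).comp (F.mapX (p + 1) q)) ?_ x
  intro a y z
  simp only [AddMonoidHom.comp_apply]
  rw [mapX_pair]
  cases p with
  | zero =>
      induction z using Finsupp.induction_linear with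
      | zero => simp
      | add c d hc hd => simp only [map_add] at hc hd ⊢; rw [hc, hd]
      | single t n =>
          rw [single_eq_zsmul t]
          simp only [map_zsmul]
          rw [pushL_single, Prof.dh_zero_pair, Prof.dh_zero_pair, mapL_pushL]
          refine congrArg (n • ·) ?_
          exact pushL_mapL (ShHom.toOne (V.W a)) (FHom.ofOne F.G2) q y
  | succ p =>
      rw [Prof.dh_succ_pair, Prof.dh_succ_pair, map_sub, mapX_shift, mapX_pair, bd_push]

/-- The map of double complexes. -/
noncomputable def dblHom : DblHom V.dbl V'.dbl :=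
  ⟨fun p q => F.mapX p q, fun p q => F.mapX_dh p q, fun p q => F.mapX_dv p q⟩

theorem mapX_row0 (p : ℕ) (x : CX p (one A)) :
    F.mapX p 0 (V.toRow0 p x) = V'.toRow0 p (pushL (FHom.ofOne F.G1) p x) := by
  refine hom_ext (f := (F.mapX p 0).comp (V.toRow0 p))
    (g := (V'.toRow0 p).comp (pushL (FHom.ofOne F.G1) p)) ?_ x
  intro g
  simp only [AddMonoidHom.comp_apply]
  cases p with
  | zero =>
      rw [pushL_single]
      exact (congrArg _ Finsupp.mapDomain_single).trans
        ((pushL_single _ _ _ _).trans Finsupp.mapDomain_single.symm)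
  | succ p =>
      obtain ⟨a, e, t, rfl⟩ := Seq.exists_cons g
      rw [← consL_single, pushL_consL, pushL_single]
      refine ((congrArg _ (V.toRow0_cons p a _)).trans ?_).trans (V'.toRow0_cons p _ _).symm
      rw [mapX_pair, pushL_single, pushL_single]
      rfl

end ProfHom

namespace Prof

variable (V : Prof A B) (U : ∀ b, Univ (V.flip b))

/-- From the homology of `B` to the homology of `A`, when every `V.flip b` has a universal
element. -/
noncomputable def sigma (n : ℕ) : (nerveCx B).H n →+ (nerveCx A).H n :=
  (V.row0Equiv n).toAddMonoidHom.comp (Dbl.colToRow (V.rowsExact U) n)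

/-- **Comparison theorem.** -/
theorem sigma_bijective (n : ℕ) (h : ∀ a k, k ≤ n → (chains (V.W a)).Exact k) :
    Function.Bijective (V.sigma U n) :=
  (V.row0Equiv n).bijective.comp (Dbl.colToRow_bijective (V.rowsExact U) n
    fun p q hq => V.col_exact p q fun a => h a q hq)

/-- **Acyclicity.** -/
theorem exact_of_fibres (U : ∀ b, Univ (V.flip b)) (n : ℕ) (hB : (nerveCx B).Exact n)
    (h : ∀ a k, k < n → (chains (V.W a)).Exact k) : (nerveCx A).Exact n := by
  have h0 := Dbl.row_exact_of_col_exact (V.rowsExact U) n (show (V.dbl.col 0).Exact n from hB)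
    fun p q hq => V.col_exact p q fun a => h a q hq
  rw [Cx.exact_iff_subsingleton] at h0 ⊢
  exact (V.row0Equiv n).symm.toEquiv.subsingleton

end Prof

theorem ProfHom.sigma_natural {V : Prof A B} {V' : Prof A' B'} (F : ProfHom V V')
    (U : ∀ b, Univ (V.flip b)) (U' : ∀ b, Univ (V'.flip b)) (n : ℕ) (x : (nerveCx B).H n) :
    (nerveMap F.G1).mapH n (V.sigma U n x) = V'.sigma U' n ((nerveMap F.G2).mapH n x) := by
  have h1 : ∀ y, (nerveMap F.G1).mapH n (V.row0Equiv n y)
      = V'.row0Equiv n ((F.dblHom.row 0).mapH n y) := by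
    intro y
    obtain ⟨y, rfl⟩ := (V.dbl.row 0).cls_surjective n y
    refine congrArg _ (Subtype.ext ?_)
    show pushL (FHom.ofOne F.G1) n (V.ofRow0 n y.1) = V'.ofRow0 n (F.mapX n 0 y.1)
    conv_rhs => rw [← V.toRow0_ofRow0 n y.1, F.mapX_row0, V'.ofRow0_toRow0]
  refine (h1 _).trans ?_
  exact congrArg (V'.row0Equiv n)
    (F.dblHom.colToRow_natural (V.rowsExact U) (V'.rowsExact U') n x)

end Vale.Agent.P259.Cat
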