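import Vale.Agent.P259.Cat.Chains

/-!
# P259, module B: functoriality of chains along functors
-/

universe u

open CategoryTheory

namespace Vale.Agent.P259.Cat

variable {A A' A'' : Type u} [SmallCategory A] [SmallCategory A'] [SmallCategory A'']

/-- A natural map `P → Q ∘ F`. -/
@[ext]
structure FHom (F : A ⥤ A') (P : Sh A) (Q : Sh A') : Type u where
  app : ∀ b, P.obj b → Q.obj (F.obj b)
  nat : ∀ {a b : A} (f : a ⟶ b) (x : P.obj a), app b (P.map f x) = Q.map (F.map f) (app a x)

namespace FHom

variable {F : A ⥤ A'} {P : Sh A} {Q : Sh A'}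

/-- The action of a functor on representables. -/
def ofHom (F : A ⥤ A') (a : A) : FHom F (hom a) (hom (F.obj a)) :=
  ⟨fun _ f => F.map f, fun g f => F.map_comp f g⟩

/-- The map of terminal functors. -/
def ofOne (F : A ⥤ A') : FHom F (one A) (one A') := ⟨fun _ _ => PUnit.unit, fun _ _ => rfl⟩

/-- Postcomposition with a transformation. -/
def post {Q' : Sh A'} (g : ShHom Q Q') (t : FHom F P Q) : FHom F P Q' :=
  ⟨fun b x => g.app _ (t.app b x), fun h x => by rw [t.nat, g.nat]⟩

/-- Precomposition with a transformation. -/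
def pre {P' : Sh A} (t : FHom F P Q) (g : ShHom P' P) : FHom F P' Q :=
  ⟨fun b x => t.app b (g.app b x), fun h x => by rw [g.nat, t.nat]⟩

theorem pre_yon (t : FHom F P Q) {a : A} (x : P.obj a) :
    t.pre (ShHom.yon P x) = (ofHom F a).post (ShHom.yon Q (t.app a x)) := by
  ext b g
  exact t.nat g x

end FHom

/-- The action on strings. -/
def Seq.push (F : A ⥤ A') : ∀ (k : ℕ) {P : Sh A} {Q : Sh A'}, FHom F P Q → Seq A k P → Seq A' k Q
  | 0, _, _, _, _ => PUnit.unit
  | k + 1, _, _, t, s => ⟨F.obj s.1, t.app s.1 s.2.1, Seq.push F k (FHom.ofHom F s.1) s.2.2⟩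

variable {F : A ⥤ A'} {P : Sh A} {Q : Sh A'}

theorem Seq.push_cons (t : FHom F P Q) {k : ℕ} (b : A) (x : P.obj b) (s : Seq A k (hom b)) :
    Seq.push F (k + 1) t (Seq.cons b x s)
      = Seq.cons (F.obj b) (t.app b x) (Seq.push F k (FHom.ofHom F b) s) := rfl

theorem Seq.push_map (k : ℕ) {P' : Sh A} (g : ShHom P' P) (t : FHom F P Q) (s : Seq A k P') :
    Seq.push F k t (Seq.map k g s) = Seq.push F k (t.pre g) s := by
  cases k <;> rfl

theorem Seq.map_push (k : ℕ) {Q' : Sh A'} (g : ShHom Q Q') (t : FHom F P Q) (s : Seq A k P) :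
    Seq.map k g (Seq.push F k t s) = Seq.push F k (t.post g) s := by
  cases k <;> rfl

/-- The action, linearly. -/
noncomputable def pushL (t : FHom F P Q) (k : ℕ) : CX k P →+ CX k Q :=
  Finsupp.mapDomain.addMonoidHom (Seq.push F k t)

theorem pushL_single (t : FHom F P Q) (k : ℕ) (s : Seq A k P) (n : ℤ) :
    pushL t k (Finsupp.single s n) = Finsupp.single (Seq.push F k t s) n :=
  Finsupp.mapDomain_single

theorem pushL_mapL {P' : Sh A} (g : ShHom P' P) (t : FHom F P Q) (k : ℕ) (x : CX k P') :
    pushL t k (mapL g k x) = pushL (t.pre g) k x := by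
  induction x using Finsupp.induction_linear with
  | zero => simp
  | add a b ha hb => simp [ha, hb]
  | single s n => simp [mapL_single, pushL_single, Seq.push_map]

theorem mapL_pushL {Q' : Sh A'} (g : ShHom Q Q') (t : FHom F P Q) (k : ℕ) (x : CX k P) :
    mapL g k (pushL t k x) = pushL (t.post g) k x := by
  induction x using Finsupp.induction_linear with
  | zero => simp
  | add a b ha hb => simp [ha, hb]
  | single s n => simp [mapL_single, pushL_single, Seq.map_push]

theorem pushL_consL (t : FHom F P Q) {k : ℕ} (b : A) (x : P.obj b) (y : CX k (hom b)) :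
    pushL t (k + 1) (consL P b x y)
      = consL Q (F.obj b) (t.app b x) (pushL (FHom.ofHom F b) k y) := by
  induction y using Finsupp.induction_linear with
  | zero => simp
  | add a c ha hc => simp [ha, hc]
  | single s n => simp [pushL_single, consL_single, Seq.push_cons]

theorem bd_push : ∀ (k : ℕ) {P : Sh A} {Q : Sh A'} (t : FHom F P Q) (x : CX (k + 1) P),
    pushL t k (bd k P x) = bd k Q (pushL t (k + 1) x) := by
  intro k
  induction k with
  | zero =>
      intro P Q t x
      refine hom_ext (f := (pushL t 0).comp (bd 0 P)) (g := (bd 0 Q).comp (pushL t 1)) ?_ x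
      intro s
      obtain ⟨b, y, r, rfl⟩ := Seq.exists_cons s
      simp only [AddMonoidHom.comp_apply]
      rw [← consL_single, pushL_consL, bd_zero_cons, bd_zero_cons, pushL_mapL, mapL_pushL,
        FHom.pre_yon]
  | succ k ih =>
      intro P Q t x
      refine hom_ext (f := (pushL t (k + 1)).comp (bd (k + 1) P))
        (g := (bd (k + 1) Q).comp (pushL t (k + 1 + 1))) ?_ x
      intro s
      obtain ⟨b, y, r, rfl⟩ := Seq.exists_cons s
      simp only [AddMonoidHom.comp_apply]
      rw [← consL_single, pushL_consL, bd_succ_cons, bd_succ_cons, map_sub, pushL_mapL, mapL_pushL,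
        FHom.pre_yon, pushL_consL, ih]

/-- The chain map of a natural map along a functor. -/
noncomputable def chainsPush (t : FHom F P Q) : CxHom (chains P) (chains Q) :=
  ⟨fun k => pushL t k, fun k => bd_push k t⟩

/-- The chain complex of a category. -/
noncomputable abbrev nerveCx (A : Type u) [SmallCategory A] : Cx.{u} := chains (one A)

/-- The chain map of a functor. -/
noncomputable def nerveMap (F : A ⥤ A') : CxHom (nerveCx A) (nerveCx A') :=
  chainsPush (FHom.ofOne F)

end Vale.Agent.P259.Cat
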