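import Vale.Agent.P259.Cat.Prof

/-!
# P259, module B: exactness of rows and columns, and row zero
-/

universe u

open CategoryTheory

namespace Vale.Agent.P259.Cat

namespace Prof

variable {A B : Type u} [SmallCategory A] [SmallCategory B] (V : Prof A B)
  (U : ∀ b, Univ (V.flip b))

/-- The contracting homotopy of a row in positive height. -/
noncomputable def htp : ∀ p q, V.KX p (q + 1) →+ V.KX (p + 1) (q + 1)
  | 0, q => lin fun g => V.pair 0 (q + 1) (U g.1).pt
      (consL _ g.1 (U g.1).elt (Finsupp.single g.2.2 1)) (Finsupp.single (Seq.nil _) 1)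
  | p + 1, q => lin fun g => V.pair (p + 1) (q + 1) (U g.2.1.1).pt
      (consL _ g.2.1.1 (U g.2.1.1).elt (Finsupp.single g.2.1.2.2 1))
      (consL (hom (U g.2.1.1).pt) g.1 ((U g.2.1.1).inv g.1 g.2.1.2.1) (Finsupp.single g.2.2 1))

theorem htp_zero (q : ℕ) (b : B) (s : CX q (hom b)) :
    V.htp U 0 q (consL (one B) b PUnit.unit s)
      = V.pair 0 (q + 1) (U b).pt (consL _ b (U b).elt s) (Finsupp.single (Seq.nil _) 1) := by
  induction s using Finsupp.induction_linear with
  | zero => simp only [map_zero, AddMonoidHom.zero_apply]; exact map_zero _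
  | add c d hc hd =>
      simp only [map_add, AddMonoidHom.add_apply]
      rw [← hc, ← hd]
      exact map_add (V.htp U 0 q) _ _
  | single r n =>
      rw [single_eq_zsmul r]
      simp only [map_zsmul, AddMonoidHom.smul_apply]
      refine (map_zsmul (V.htp U 0 q) n _).trans (congrArg (n • ·) ?_)
      rw [consL_single]
      exact (lin_single _ _ _).trans (one_smul _ _)

theorem htp_succ (p q : ℕ) (a : A) (b : B) (w : (V.W a).obj b) (s : CX q (hom b))
    (z : CX p (hom a)) :
    V.htp U (p + 1) q (V.pair p (q + 1) a (consL _ b w s) z)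
      = V.pair (p + 1) (q + 1) (U b).pt (consL _ b (U b).elt s)
          (consL (hom (U b).pt) a ((U b).inv a w) z) := by
  induction s using Finsupp.induction_linear with
  | zero => simp
  | add c d hc hd => simp only [map_add, AddMonoidHom.add_apply]; rw [hc, hd]
  | single r m =>
    induction z using Finsupp.induction_linear with
    | zero => simp
    | add c d hc hd => simp only [map_add] at hc hd ⊢; rw [hc, hd]
    | single t n =>
        rw [single_eq_zsmul r, single_eq_zsmul t]
        simp only [map_zsmul, AddMonoidHom.smul_apply]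
        refine congrArg (fun x => n • (m • x)) ?_
        rw [consL_single, pair_single, mul_one]
        exact (lin_single _ _ _).trans (one_smul _ _)

theorem yon_toOne {b : B} (P : Sh B) (x : P.obj b) :
    (ShHom.toOne P).app b x = PUnit.unit := rfl

theorem dh_htp_zero (q : ℕ) (x : V.KX 0 (q + 1)) :
    V.dh 0 (q + 1) (V.htp U 0 q x) = x := by
  refine hom_ext (f := (V.dh 0 (q + 1)).comp (V.htp U 0 q)) (g := AddMonoidHom.id _) ?_ x
  intro g
  obtain ⟨b, e, r, rfl⟩ := Seq.exists_cons (P := one B) g
  rw [AddMonoidHom.comp_apply, AddMonoidHom.id_apply]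
  refine (congrArg (fun y => V.dh 0 (q + 1) (V.htp U 0 q y))
    (consL_single (one B) b e r 1).symm).trans ?_
  rw [V.htp_zero U q b (Finsupp.single r 1), dh_zero_pair, mapL_consL, consL_single]
  rfl

theorem htp_shift (p q : ℕ) {a : A} (b : B) (w : (V.W a).obj b) (s : CX q (hom b))
    (z : CX (p + 1) (hom a)) :
    V.htp U (p + 1) q (V.shift p (q + 1) a (consL _ b w s) z)
      = V.pair (p + 1) (q + 1) (U b).pt (consL _ b (U b).elt s)
          (mapL (ShHom.yon (hom (U b).pt) ((U b).inv a w)) (p + 1) z) := by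
  induction z using Finsupp.induction_linear with
  | zero => simp
  | add c d hc hd => simp only [map_add] at hc hd ⊢; rw [hc, hd]
  | single t n =>
      obtain ⟨a', f, r, rfl⟩ := Seq.exists_cons t
      rw [← consL_single, shift_cons, mapL_consL, mapL_consL, htp_succ]
      have h : (U b).inv a' ((V.act f).app b w) = (U b).inv a w ≫ f :=
        ((U b).toHom.nat f w)
      rw [h]
      rfl

theorem dh_htp_add (p q : ℕ) (x : V.KX (p + 1) (q + 1)) :
    V.dh (p + 1) (q + 1) (V.htp U (p + 1) q x) + V.htp U p q (V.dh p (q + 1) x) = x := by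
  refine V.pair_ext_gen (F := (V.dh (p + 1) (q + 1)).comp (V.htp U (p + 1) q)
    + (V.htp U p q).comp (V.dh p (q + 1))) (G := AddMonoidHom.id _) ?_ x
  intro a y z
  simp only [AddMonoidHom.add_apply, AddMonoidHom.comp_apply, AddMonoidHom.id_apply]
  induction y using Finsupp.induction_linear with
  | zero => simp
  | add c d hc hd =>
      simp only [map_add, AddMonoidHom.add_apply] at hc hd ⊢
      rw [add_add_add_comm, hc, hd]
  | single g m =>
      obtain ⟨b, w, r, rfl⟩ := Seq.exists_cons g
      rw [← consL_single, htp_succ, dh_succ_pair]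
      have hs : mapL (V.act ((U b).inv a w)) (q + 1)
          (consL (V.W (U b).pt) b (U b).elt (Finsupp.single r m))
          = consL (V.W a) b w (Finsupp.single r m) := by
        rw [mapL_consL]
        exact congrArg (fun v => consL (V.W a) b v (Finsupp.single r m)) ((U b).map_inv a w)
      rw [shift_cons, hs]
      cases p with
      | zero =>
          induction z using Finsupp.induction_linear with
          | zero => simp
          | add c d hc hd =>
              simp only [map_add] at hc hd ⊢
              conv_rhs => rw [← hc, ← hd]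
              abel
          | single t n =>
              rw [single_eq_zsmul t]
              simp only [map_zsmul]
              rw [bd_zero_cons, dh_zero_pair, mapL_single, mapL_consL]
              have := V.htp_zero U q b (Finsupp.single r m)
              rw [this, ← smul_sub, ← smul_add]
              exact congrArg (n • ·) (sub_add_cancel _ _)
      | succ p =>
          rw [bd_succ_cons, map_sub, dh_succ_pair, map_sub, htp_shift, htp_succ]
          abel

theorem rowsExact (U : ∀ b, Univ (V.flip b)) : V.dbl.RowsExact := by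
  intro p q x hx
  refine ⟨V.htp U p q x, ?_⟩
  cases p with
  | zero => exact V.dh_htp_zero U q x
  | succ p =>
      have h := V.dh_htp_add U p q x
      rw [show V.dh p (q + 1) x = 0 from hx] at h
      rw [map_zero, add_zero] at h
      exact h

/-- The component of a column at a string in `A`. -/
noncomputable def proj (p q : ℕ) (a : A) (t : Seq A p (hom a)) :
    V.KX (p + 1) q →+ CX q (V.W a) :=
  Finsupp.comapDomain.addMonoidHom (f := fun s => V.gen p q a s t) (by
    intro s s' h
    exact (Prod.mk.inj (eq_of_heq (Sigma.mk.inj h).2)).1)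

theorem proj_gen_self (p q : ℕ) (a : A) (s : Seq B q (V.W a)) (t : Seq A p (hom a)) :
    V.proj p q a t (Finsupp.single (V.gen p q a s t) 1) = Finsupp.single s 1 := by
  classical
  ext s'
  show Finsupp.single (V.gen p q a s t) (1 : ℤ) (V.gen p q a s' t) = _
  rw [Finsupp.single_apply, Finsupp.single_apply]
  refine if_congr ⟨fun e => ?_, fun e => by rw [e]⟩ rfl rfl
  exact (Prod.mk.inj (eq_of_heq (Sigma.mk.inj e).2)).1

theorem proj_gen_ne (p q : ℕ) (a a' : A) (s : Seq B q (V.W a')) (t : Seq A p (hom a'))
    (t₀ : Seq A p (hom a)) (h : (⟨a, t₀⟩ : Σ a, Seq A p (hom a)) ≠ ⟨a', t⟩) :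
    V.proj p q a t₀ (Finsupp.single (V.gen p q a' s t) 1) = 0 := by
  ext s'
  show Finsupp.single (V.gen p q a' s t) (1 : ℤ) (V.gen p q a s' t₀) = 0
  refine Finsupp.single_eq_of_ne fun e => h ?_
  exact congrArg (fun g : V.Idx (p + 1) q => (⟨g.1, g.2.2⟩ : Σ a, Seq A p (hom a))) e

theorem proj_pair_self (p q : ℕ) (a : A) (y : CX q (V.W a)) (t : Seq A p (hom a)) :
    V.proj p q a t (V.pair p q a y (Finsupp.single t 1)) = y := by
  induction y using Finsupp.induction_linear with
  | zero => simp
  | add c d hc hd => simp only [map_add, AddMonoidHom.add_apply]; rw [hc, hd]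
  | single s n =>
      rw [single_eq_zsmul s]
      simp only [map_zsmul, AddMonoidHom.smul_apply]
      rw [pair_single, mul_one, proj_gen_self]

theorem proj_pair_ne (p q : ℕ) (a a' : A) (y : CX q (V.W a')) (t : Seq A p (hom a'))
    (t₀ : Seq A p (hom a)) (h : (⟨a, t₀⟩ : Σ a, Seq A p (hom a)) ≠ ⟨a', t⟩) :
    V.proj p q a t₀ (V.pair p q a' y (Finsupp.single t 1)) = 0 := by
  induction y using Finsupp.induction_linear with
  | zero => simp
  | add c d hc hd => simp only [map_add, AddMonoidHom.add_apply]; rw [hc, hd, add_zero]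
  | single s n =>
      rw [single_eq_zsmul s]
      simp only [map_zsmul, AddMonoidHom.smul_apply]
      rw [pair_single, mul_one, proj_gen_ne V p q a a' s t t₀ h, smul_zero]

open Classical in
theorem proj_dv (p q : ℕ) (a : A) (t : Seq A p (hom a)) (x : V.KX (p + 1) (q + 1)) :
    V.proj p q a t (V.dv (p + 1) q x) = bd q (V.W a) (V.proj p (q + 1) a t x) := by
  refine hom_ext (f := (V.proj p q a t).comp (V.dv (p + 1) q))
    (g := (bd q (V.W a)).comp (V.proj p (q + 1) a t)) ?_ x
  intro g
  obtain ⟨a', s, t', rfl⟩ := V.exists_gen g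
  simp only [AddMonoidHom.comp_apply]
  have : Finsupp.single (V.gen p (q + 1) a' s t') (1 : ℤ)
      = V.pair p (q + 1) a' (Finsupp.single s 1) (Finsupp.single t' 1) := by
    rw [pair_single, mul_one]
  rw [this, dv_pair]
  by_cases h : (⟨a, t⟩ : Σ a, Seq A p (hom a)) = ⟨a', t'⟩
  · cases h
    rw [proj_pair_self, proj_pair_self]
  · rw [proj_pair_ne V p q a a' _ t' t h, proj_pair_ne V p (q + 1) a a' _ t' t h, map_zero]

open Classical in
theorem decomp (p q : ℕ) (x : V.KX (p + 1) q) :
    ∃ S : Finset (Σ a, Seq A p (hom a)),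
      ∑ i ∈ S, V.pair p q i.1 (V.proj p q i.1 i.2 x) (Finsupp.single i.2 1) = x := by
  refine ⟨x.support.image fun g => ⟨g.1, g.2.2⟩, ?_⟩
  generalize hS : (x.support.image fun g : V.Idx (p + 1) q =>
    (⟨g.1, g.2.2⟩ : Σ a, Seq A p (hom a))) = S
  have key : ∀ g : V.Idx (p + 1) q, g ∈ x.support →
      ∑ i ∈ S, V.pair p q i.1 (V.proj p q i.1 i.2 (Finsupp.single g (x g))) (Finsupp.single i.2 1)
        = Finsupp.single g (x g) := by
    intro g hg
    have hm : (⟨g.1, g.2.2⟩ : Σ a, Seq A p (hom a)) ∈ S := hS ▸ Finset.mem_image_of_mem _ hg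
    obtain ⟨a, s, t, rfl⟩ := V.exists_gen g
    rw [single_eq_zsmul]
    simp only [map_zsmul, AddMonoidHom.smul_apply]
    rw [← Finset.smul_sum]
    refine congrArg (x (V.gen p q a s t) • ·) ?_
    rw [Finset.sum_eq_single (⟨a, t⟩ : Σ a, Seq A p (hom a))]
    · rw [proj_gen_self, pair_single, mul_one]
    · intro i _ hi
      rw [proj_gen_ne V p q i.1 a s t i.2 hi, map_zero, AddMonoidHom.zero_apply]
    · exact fun h => absurd hm h
  have hx : ∑ g ∈ x.support, Finsupp.single g (x g) = x := Finsupp.sum_single x
  conv_rhs => rw [← hx]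
  conv_lhs =>
    arg 2; ext i
    rw [← hx, map_sum, map_sum, AddMonoidHom.finsetSum_apply]
  rw [Finset.sum_comm]
  exact Finset.sum_congr rfl key

/-- A column is exact when all the fibres are. -/
theorem col_exact (p q : ℕ) (h : ∀ a, (chains (V.W a)).Exact q) :
    (V.dbl.col (p + 1)).Exact q := by
  intro x hx
  have hc : ∀ a t, V.proj p q a t x ∈ (chains (V.W a)).cyc q := by
    intro a t
    cases q with
    | zero => trivial
    | succ q =>
        show bd q (V.W a) _ = 0
        rw [← proj_dv, show V.dv (p + 1) q x = 0 from hx, map_zero]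
  choose y hy using fun i : Σ a, Seq A p (hom a) => h i.1 _ (hc i.1 i.2)
  obtain ⟨S, hS⟩ := V.decomp p q x
  refine ⟨∑ i ∈ S, V.pair p (q + 1) i.1 (y i) (Finsupp.single i.2 1), ?_⟩
  show V.dv (p + 1) q _ = x
  rw [map_sum]
  refine Eq.trans (Finset.sum_congr rfl fun i _ => ?_) hS
  rw [dv_pair, show bd q (V.W i.1) (y i) = _ from hy i]

/-- The identification of chains of `A` with row zero. -/
noncomputable def toRow0 : ∀ p, CX p (one A) →+ V.KX p 0
  | 0 => Finsupp.mapDomain.addMonoidHom fun _ => (PUnit.unit : Seq B 0 (one B))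
  | p + 1 => Finsupp.mapDomain.addMonoidHom fun g => V.gen p 0 g.1 PUnit.unit g.2.2

/-- Its inverse. -/
noncomputable def ofRow0 : ∀ p, V.KX p 0 →+ CX p (one A)
  | 0 => Finsupp.mapDomain.addMonoidHom fun _ => (PUnit.unit : Seq A 0 (one A))
  | p + 1 => Finsupp.mapDomain.addMonoidHom fun g => Seq.cons g.1 PUnit.unit g.2.2

theorem toRow0_cons (p : ℕ) (a : A) (z : CX p (hom a)) :
    V.toRow0 (p + 1) (consL (one A) a PUnit.unit z)
      = V.pair p 0 a (Finsupp.single (Seq.nil _) 1) z := by
  induction z using Finsupp.induction_linear with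
  | zero => simp
  | add c d hc hd => simp only [map_add]; rw [hc, hd]
  | single t n =>
      rw [consL_single, pair_single, one_mul]
      exact Finsupp.mapDomain_single

theorem toRow0_comm : ∀ p (x : CX (p + 1) (one A)),
    V.toRow0 p (bd p (one A) x) = V.dh p 0 (V.toRow0 (p + 1) x) := by
  intro p x
  refine hom_ext (f := (V.toRow0 p).comp (bd p (one A))) (g := (V.dh p 0).comp (V.toRow0 (p + 1)))
    ?_ x
  intro g
  obtain ⟨a, e, t, rfl⟩ := Seq.exists_cons g
  simp only [AddMonoidHom.comp_apply]
  rw [← consL_single]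
  refine Eq.trans ?_ (congrArg (V.dh p 0) (V.toRow0_cons p a _).symm)
  cases p with
  | zero =>
      rw [bd_zero_cons, dh_zero_pair, mapL_single, mapL_single]
      exact Finsupp.mapDomain_single
  | succ p =>
      rw [bd_succ_cons, map_sub, dh_succ_pair, toRow0_cons]
      refine congrArg (fun w => w - _) ?_
      obtain ⟨a', f, r, rfl⟩ := Seq.exists_cons t
      rw [← consL_single, mapL_consL, shift_cons, mapL_single]
      exact V.toRow0_cons p a' _

theorem ofRow0_toRow0 : ∀ p (x : CX p (one A)), V.ofRow0 p (V.toRow0 p x) = x := by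
  intro p x
  refine hom_ext (f := (V.ofRow0 p).comp (V.toRow0 p)) (g := AddMonoidHom.id _) ?_ x
  intro g
  cases p with
  | zero => exact (congrArg _ Finsupp.mapDomain_single).trans Finsupp.mapDomain_single
  | succ p => exact (congrArg _ Finsupp.mapDomain_single).trans Finsupp.mapDomain_single

theorem toRow0_ofRow0 : ∀ p (x : V.KX p 0), V.toRow0 p (V.ofRow0 p x) = x := by
  intro p x
  refine hom_ext (f := (V.toRow0 p).comp (V.ofRow0 p)) (g := AddMonoidHom.id _) ?_ x
  intro g
  cases p with
  | zero => exact (congrArg _ Finsupp.mapDomain_single).trans Finsupp.mapDomain_single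
  | succ p => exact (congrArg _ Finsupp.mapDomain_single).trans Finsupp.mapDomain_single

theorem ofRow0_comm (p : ℕ) (x : V.KX (p + 1) 0) :
    V.ofRow0 p (V.dh p 0 x) = bd p (one A) (V.ofRow0 (p + 1) x) := by
  conv_lhs => rw [← V.toRow0_ofRow0 (p + 1) x, ← toRow0_comm, ofRow0_toRow0]

/-- Chains of `A` to row zero. -/
noncomputable def row0In : CxHom (nerveCx A) (V.dbl.row 0) :=
  ⟨fun p => V.toRow0 p, fun p => V.toRow0_comm p⟩

/-- Row zero to chains of `A`. -/
noncomputable def row0Out : CxHom (V.dbl.row 0) (nerveCx A) :=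
  ⟨fun p => V.ofRow0 p, fun p => V.ofRow0_comm p⟩

/-- Homology of row zero is homology of `A`. -/
noncomputable def row0Equiv (n : ℕ) : (V.dbl.row 0).H n ≃+ (nerveCx A).H n where
  toFun := V.row0Out.mapH n
  invFun := V.row0In.mapH n
  left_inv x := by
    obtain ⟨x, rfl⟩ := (V.dbl.row 0).cls_surjective n x
    exact congrArg _ (Subtype.ext (V.toRow0_ofRow0 n x.1))
  right_inv x := by
    obtain ⟨x, rfl⟩ := (nerveCx A).cls_surjective n x
    exact congrArg _ (Subtype.ext (V.ofRow0_toRow0 n x.1))
  map_add' := map_add _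

end Prof

end Vale.Agent.P259.Cat
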