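import Vale.Agent.P259.Cat.Elements

/-!
# P259, module B: connectedness, coinvariants and the transgression
-/

universe u

open CategoryTheory

namespace Vale.Agent.P259.Cat

variable {A B : Type u} [SmallCategory A] [SmallCategory B]

theorem bd_edge (a b : A) (f : a ⟶ b) :
    bd 1 (one A) (consL (one A) a PUnit.unit
      (consL (hom a) b f (Finsupp.single (Seq.nil _) 1)))
      = consL (one A) b PUnit.unit (Finsupp.single (Seq.nil _) 1)
        - consL (one A) a PUnit.unit (Finsupp.single (Seq.nil _) 1) := by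
  rw [bd_succ_cons, mapL_consL, bd_zero_cons, mapL_single]
  rfl

/-- A category with acyclic augmented chains in degree `1` is connected. -/
theorem zigzag_of_exact (h : (nerveCx A).Exact 1) (a b : A) : Zigzag a b := by
  classical
  let χ : CX 1 (one A) →+ ℤ := lin fun s => if Zigzag a s.1 then 1 else 0
  have hχ : ∀ c, χ (consL (one A) c PUnit.unit (Finsupp.single (Seq.nil _) 1))
      = if Zigzag a c then 1 else 0 := by
    intro c
    rw [consL_single]
    exact (lin_single _ _ _).trans (one_smul _ _)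
  have hcyc : consL (one A) b PUnit.unit (Finsupp.single (Seq.nil _) 1)
      - consL (one A) a PUnit.unit (Finsupp.single (Seq.nil _) 1) ∈ (nerveCx A).cyc 1 := by
    show bd 0 (one A) _ = 0
    rw [map_sub, bd_zero_cons, bd_zero_cons, mapL_single, mapL_single]
    exact sub_self _
  obtain ⟨y, hy⟩ := h _ hcyc
  have h0 : χ (bd 1 (one A) y) = 0 := by
    refine hom_ext (f := χ.comp (bd 1 (one A))) (g := 0) (fun s => ?_) y
    obtain ⟨c, e, r, rfl⟩ := Seq.exists_cons s
    obtain ⟨d, f, t, rfl⟩ := Seq.exists_cons r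
    have hs : Finsupp.single (Seq.cons (P := one A) c e (Seq.cons (P := hom c) d f t)) (1 : ℤ)
        = consL (one A) c PUnit.unit
          (consL (hom c) d f (Finsupp.single (Seq.nil _) 1)) := by
      rw [consL_single, consL_single]; rfl
    rw [AddMonoidHom.comp_apply, hs, bd_edge, map_sub, hχ, hχ, AddMonoidHom.zero_apply]
    have hiff : Zigzag a c ↔ Zigzag a d :=
      ⟨fun z => z.trans (Zigzag.of_hom f), fun z => z.trans (Zigzag.of_inv f)⟩
    simp [hiff]
  rw [show bd 1 (one A) y = _ from hy, map_sub, hχ, hχ, if_pos (Zigzag.refl a)] at h0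
  by_contra hz
  rw [if_neg hz] at h0
  exact absurd h0 (by norm_num)

/-- A category with exact chains in degree `0` is nonempty. -/
theorem nonempty_of_exact (h : (nerveCx A).Exact 0) : Nonempty A := by
  by_contra hne
  have : IsEmpty A := not_nonempty_iff.1 hne
  obtain ⟨y, hy⟩ := h (Finsupp.single (Seq.nil _) 1) trivial
  have : y = 0 := Finsupp.ext fun s => isEmptyElim s.1
  rw [this, map_zero] at hy
  exact one_ne_zero (Finsupp.single_eq_zero.1 hy.symm)

namespace Prof

variable (V : Prof A B) {k : ℕ} {M : Type u} [AddCommGroup M]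
  (θ : ∀ a, (chains (V.W a)).H k →+ M)

theorem proj_cyc (p : ℕ) (a : A) (t : Seq A p (hom a)) {x : V.KX (p + 1) k}
    (hx : x ∈ V.dbl.vc (p + 1) k) : V.proj p k a t x ∈ (chains (V.W a)).cyc k := by
  cases k with
  | zero => trivial
  | succ k =>
      show bd k (V.W a) _ = 0
      rw [← proj_dv, show V.dv (p + 1) k x = 0 from hx, map_zero]

/-- The component class of a cycle in column one. -/
noncomputable def comp1 (a : A) : V.dbl.vc 1 k →+ (chains (V.W a)).H k :=
  ((chains (V.W a)).cls k).comp (((V.proj 0 k a (Seq.nil _)).comp (V.dbl.vc 1 k).subtype).codRestrict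
    ((chains (V.W a)).cyc k) fun x => V.proj_cyc 0 a _ x.2)

theorem comp1_support (x : V.dbl.vc 1 k) :
    (Function.support fun a => θ a (V.comp1 a x)).Finite := by
  classical
  refine ((x.1 : V.KX 1 k).support.image fun g => g.1).finite_toSet.subset fun a ha => ?_
  rw [Finset.coe_image]
  by_contra h
  refine ha ?_
  have h0 : V.proj 0 k a (Seq.nil _) x.1 = 0 := by
    ext s
    by_contra hne
    exact h ⟨V.gen 0 k a s (Seq.nil _), Finsupp.mem_support_iff.2 hne, rfl⟩
  have h1 : V.comp1 a x = 0 :=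
    (congrArg ((chains (V.W a)).cls k) (Subtype.ext h0)).trans (map_zero _)
  exact (congrArg (θ a) h1).trans (map_zero _)

/-- Sum of the classes of the components. -/
noncomputable def total : V.dbl.vc 1 k →+ M where
  toFun x := ∑ᶠ a, θ a (V.comp1 a x)
  map_zero' := by simp
  map_add' x y := by
    simp only [map_add]
    exact finsum_add_distrib (V.comp1_support θ x) (V.comp1_support θ y)

theorem pair_cyc {p : ℕ} {a : A} {y : CX k (V.W a)} (hy : y ∈ (chains (V.W a)).cyc k)
    (z : CX p (hom a)) : V.pair p k a y z ∈ V.dbl.vc (p + 1) k := by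
  cases k with
  | zero => trivial
  | succ k =>
      show V.dv (p + 1) k _ = 0
      rw [dv_pair, show bd k (V.W a) y = 0 from hy, map_zero, AddMonoidHom.zero_apply]

/-- A cycle in one fibre, placed in column one. -/
noncomputable def inCol (a : A) : (chains (V.W a)).cyc k →+ V.dbl.vc 1 k :=
  AddMonoidHom.mk' (fun y => ⟨V.pair 0 k a y.1 (Finsupp.single (Seq.nil _) 1),
      V.pair_cyc y.2 _⟩)
    fun y y' => Subtype.ext (by
      show V.pair 0 k a (y.1 + y'.1) _ = _
      rw [map_add]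
      rfl)

theorem total_inCol (a : A) (y : (chains (V.W a)).cyc k) :
    V.total θ (V.inCol a y) = θ a ((chains (V.W a)).cls k y) := by
  refine (finsum_eq_single _ a fun a' ha => ?_).trans ?_
  · have h0 : V.comp1 a' (V.inCol a y) = 0 := by
      refine Eq.trans ?_ (map_zero ((chains (V.W a')).cls k))
      refine congrArg ((chains (V.W a')).cls k) (Subtype.ext ?_)
      exact V.proj_pair_ne 0 k a' a y.1 _ _ fun e => ha (congrArg Sigma.fst e)
    exact (congrArg (θ a') h0).trans (map_zero _)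
  · exact congrArg (θ a) (congrArg ((chains (V.W a)).cls k) (Subtype.ext (V.proj_pair_self 0 k a y.1 _)))

theorem total_dv (y : V.KX 1 (k + 1)) :
    V.total θ ⟨V.dv 1 k y, V.dbl.dv_vc 1 k y⟩ = 0 := by
  refine finsum_eq_zero_of_forall_eq_zero fun a => ?_
  have h0 : V.comp1 a ⟨V.dv 1 k y, V.dbl.dv_vc 1 k y⟩ = 0 :=
    ((chains (V.W a)).cls_eq_zero _).2 ⟨V.proj 0 (k + 1) a _ y, (V.proj_dv 0 k a _ y).symm⟩
  exact (congrArg (θ a) h0).trans (map_zero _)

theorem dh_pair_edge {a b : A} (f : a ⟶ b) (y : CX k (V.W a)) :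
    V.dh 1 k (V.pair 1 k a y (consL (hom a) b f (Finsupp.single (Seq.nil _) 1)))
      = V.pair 0 k b (mapL (V.act f) k y) (Finsupp.single (Seq.nil _) 1)
        - V.pair 0 k a y (Finsupp.single (Seq.nil _) 1) := by
  rw [dh_succ_pair, shift_cons, bd_zero_cons, mapL_single]
  rfl

variable (hθ : ∀ {a b : A} (f : a ⟶ b) x, θ b ((chainsMap (V.act f)).mapH k x) = θ a x)

include hθ in
theorem total_dh {w : V.KX 2 k} (hw : w ∈ V.dbl.vc 2 k) :
    V.total θ ⟨V.dh 1 k w, V.dbl.dh_vc hw⟩ = 0 := by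
  obtain ⟨S, hS⟩ := V.decomp 1 k w
  let h : V.dbl.vc 2 k →+ M :=
    (V.total θ).comp (((V.dh 1 k).comp (V.dbl.vc 2 k).subtype).codRestrict (V.dbl.vc 1 k)
      fun x => V.dbl.dh_vc x.2)
  let part (i : Σ a, Seq A 1 (hom a)) : V.dbl.vc 2 k :=
    ⟨V.pair 1 k i.1 (V.proj 1 k i.1 i.2 w) (Finsupp.single i.2 1),
      V.pair_cyc (V.proj_cyc 1 i.1 i.2 hw) _⟩
  have hw' : (⟨w, hw⟩ : V.dbl.vc 2 k) = ∑ i ∈ S, part i := by
    refine Subtype.ext ?_
    rw [AddSubgroup.val_finsetSum]
    exact hS.symm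
  show h ⟨w, hw⟩ = 0
  rw [hw', map_sum]
  refine Finset.sum_eq_zero fun i _ => ?_
  obtain ⟨a, t⟩ := i
  obtain ⟨b, f, r, rfl⟩ := Seq.exists_cons t
  let y : (chains (V.W a)).cyc k := ⟨_, V.proj_cyc 1 a (Seq.cons b f r) hw⟩
  have he : h (part ⟨a, Seq.cons b f r⟩)
      = V.total θ (V.inCol b ((chainsMap (V.act f)).cycMap k y) - V.inCol a y) := by
    refine congrArg (V.total θ) (Subtype.ext ?_)
    refine Eq.trans ?_ (V.dh_pair_edge f y.1)
    show V.dh 1 k (V.pair 1 k a y.1 (Finsupp.single (Seq.cons b f r) 1)) = _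
    rw [consL_single]
    rfl
  rw [he, map_sub, total_inCol, total_inCol, ← CxHom.mapH_cls, hθ, sub_self]

/-- The cokernel `T` maps to any compatible target. -/
noncomputable def coinv : V.dbl.T k →+ M :=
  QuotientAddGroup.lift _ (V.total θ) fun x hx => by
    obtain ⟨y, w, hw, he⟩ := (V.dbl.tcls_eq_zero x).1 ((QuotientAddGroup.eq_zero_iff x).2 hx)
    have : x = (⟨V.dv 1 k y, V.dbl.dv_vc 1 k y⟩ : V.dbl.vc 1 k)
        + ⟨V.dh 1 k w, V.dbl.dh_vc hw⟩ := Subtype.ext he.symm
    rw [AddMonoidHom.mem_ker, this, map_add, total_dv, total_dh V θ hθ hw, add_zero]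

theorem coinv_tcls (x : V.dbl.vc 1 k) : V.coinv θ hθ (V.dbl.tcls k x) = V.total θ x := rfl

theorem tcls_inCol_act {a b : A} (f : a ⟶ b) (y : (chains (V.W a)).cyc k) :
    V.dbl.tcls k (V.inCol b ((chainsMap (V.act f)).cycMap k y))
      = V.dbl.tcls k (V.inCol a y) := by
  rw [← sub_eq_zero, ← map_sub, Dbl.tcls_eq_zero]
  refine ⟨0, _, V.pair_cyc y.2 (consL (hom a) b f (Finsupp.single (Seq.nil _) 1)), ?_⟩
  rw [map_zero, zero_add]
  exact V.dh_pair_edge f y.1

include hθ in
theorem coinv_bijective [Nonempty A] (hA : ∀ a b : A, Zigzag a b)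
    (hb : ∀ a, Function.Bijective (θ a)) : Function.Bijective (V.coinv θ hθ) := by
  obtain ⟨a₀⟩ := ‹Nonempty A›
  -- all fibres give the same classes
  have hc : ∀ (a : A) (y : (chains (V.W a)).cyc k) (y₀ : (chains (V.W a₀)).cyc k),
      θ a ((chains (V.W a)).cls k y) = θ a₀ ((chains (V.W a₀)).cls k y₀) →
      V.dbl.tcls k (V.inCol a y) = V.dbl.tcls k (V.inCol a₀ y₀) := by
    have key : ∀ a, ∀ y y' : (chains (V.W a)).cyc k,
        (chains (V.W a)).cls k y = (chains (V.W a)).cls k y' →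
        V.dbl.tcls k (V.inCol a y) = V.dbl.tcls k (V.inCol a y') := by
      intro a y y' e
      rw [← sub_eq_zero, ← map_sub] at e
      obtain ⟨z, hz⟩ := ((chains (V.W a)).cls_eq_zero _).1 e
      rw [← sub_eq_zero, ← map_sub, ← map_sub, Dbl.tcls_eq_zero]
      refine ⟨V.pair 0 (k + 1) a z (Finsupp.single (Seq.nil _) 1), 0, zero_mem _, ?_⟩
      rw [map_zero, add_zero]
      show V.dv 1 k _ = _
      rw [dv_pair, show bd k (V.W a) z = _ from hz]
      rfl
    intro a
    induction (hA a₀ a) with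
    | refl => exact fun y y₀ e => key a₀ y y₀ ((hb a₀).1 e)
    | @tail b c _ hbc ih =>
        intro y y₀ e
        rcases hbc with ⟨⟨f⟩⟩ | ⟨⟨f⟩⟩
        · obtain ⟨u, hu⟩ := (hb b).2 (θ c ((chains (V.W c)).cls k y))
          obtain ⟨u, rfl⟩ := (chains (V.W b)).cls_surjective k u
          rw [← ih u y₀ (hu.trans e), ← V.tcls_inCol_act f u]
          refine key c _ _ ((hb c).1 ?_)
          rw [← CxHom.mapH_cls, hθ, hu]
        · rw [← V.tcls_inCol_act f y]
          refine ih _ y₀ ?_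
          rw [← CxHom.mapH_cls, hθ, e]
  have hsurj : ∀ x : V.dbl.T k, ∃ y₀, V.dbl.tcls k (V.inCol a₀ y₀) = x := by
    intro x
    obtain ⟨x, rfl⟩ := V.dbl.tcls_surjective k x
    obtain ⟨S, hS⟩ := V.decomp 0 k x.1
    let part (i : Σ a, Seq A 0 (hom a)) : (chains (V.W i.1)).cyc k :=
      ⟨_, V.proj_cyc 0 i.1 i.2 x.2⟩
    have hpick : ∀ i : Σ a, Seq A 0 (hom a),
        ∃ y₀, V.dbl.tcls k (V.inCol i.1 (part i)) = V.dbl.tcls k (V.inCol a₀ y₀) := by
      intro i
      obtain ⟨u, hu⟩ := (hb a₀).2 (θ i.1 ((chains (V.W i.1)).cls k (part i)))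
      obtain ⟨u, rfl⟩ := (chains (V.W a₀)).cls_surjective k u
      exact ⟨u, hc _ _ u hu.symm⟩
    choose y hy using hpick
    refine ⟨∑ i ∈ S, y i, ?_⟩
    rw [map_sum, map_sum, ← Finset.sum_congr rfl fun i _ => hy i, ← map_sum]
    refine congrArg _ (Subtype.ext ?_)
    rw [AddSubgroup.val_finsetSum]
    exact hS
  constructor
  · rw [injective_iff_map_eq_zero]
    intro x hx
    obtain ⟨y₀, rfl⟩ := hsurj x
    rw [coinv_tcls, total_inCol] at hx
    have h0 := hc a₀ y₀ 0 (by rw [hx, map_zero, map_zero])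
    rw [map_zero, map_zero] at h0
    exact h0
  · intro m
    obtain ⟨u, rfl⟩ := (hb a₀).2 m
    obtain ⟨u, rfl⟩ := (chains (V.W a₀)).cls_surjective k u
    exact ⟨_, (V.coinv_tcls θ hθ _).trans (V.total_inCol θ a₀ u)⟩

/-- **Transgression.** If the `B`-side is acyclic in degrees `k`, `k + 1`, the fibres are exact
below `k` and their degree `k` homology is a constant system with value `M` on a connected `A`,
then `M` is the homology of `A` in degree `k + 1`. -/
noncomputable def transgressionEquiv [Nonempty A] (U : ∀ b, Univ (V.flip b))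
    (h0 : (nerveCx B).Exact k) (h1 : (nerveCx B).Exact (k + 1))
    (hf : ∀ a j, j < k → (chains (V.W a)).Exact j) (hA : ∀ a b : A, Zigzag a b)
    (hb : ∀ a, Function.Bijective (θ a)) : M ≃+ (nerveCx A).H (k + 1) :=
  (AddEquiv.ofBijective (V.coinv θ hθ) (V.coinv_bijective θ hθ hA hb)).symm.trans
    ((Dbl.transgression (V.rowsExact U) k h0 h1
      fun p q hq => V.col_exact p q fun a => hf a q hq).trans (V.row0Equiv (k + 1)))

end Prof

end Vale.Agent.P259.Cat
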